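import Vale.Agent.P196.Full.Calculus.Meet

/-!
# P196: one cell of three coefficients

`e`, `f` have the meet `g`; `r₀`, `r₁` are the two halves of a partition, `p` and `q` the meets of
`e` and `f` with them. If the meet of `p₀` and `q₀` is a homomorphism then so are the meet of
`g` and `r₀` and the complementary cell.
-/

namespace Vale.Agent.P196.Full.Calculus

open Equiv Equiv.Perm
open scoped commutatorElement

variable {n : ℕ} {H : Type*} [Group H]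

/-- `e` is the product of the commuting coefficients `e₀` and `e₁`. -/
def Split (e₀ e₁ e : Alt n →* H) : Prop := Comm e₀ e₁ ∧ ∀ a, e a = e₀ a * e₁ a

lemma Split.symm {e₀ e₁ e : Alt n →* H} (h : Split e₀ e₁ e) : Split e₁ e₀ e :=
  ⟨h.1.symm, fun a => (h.2 a).trans (h.1 a a).eq⟩

lemma Split.comm {e₀ e₁ e f : Alt n →* H} (h : Split e₀ e₁ e) (h₀ : Comm e₀ f) (h₁ : Comm e₁ f) :
    Comm e f := fun a b => by rw [h.2]; exact (h₀ a b).mul_left (h₁ a b)

/-- A half moves its part of a split coefficient by inner automorphisms. -/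
lemma Meet.conj_part {p₀ p₁ e r₀ : Alt n →* H} (hs : Split p₀ p₁ e) (h : Meet e r₀ p₀)
    (hc : Comm p₁ r₀) (a b : Alt n) : r₀ b * p₀ a * (r₀ b)⁻¹ = p₀ (b * a * b⁻¹) := by
  have h' := h a b
  rw [hs.2, commutatorElement_def] at h'
  have c1 := (hc a b).eq
  have : p₀ a * r₀ b * (p₀ a)⁻¹ * (r₀ b)⁻¹ = p₀ ⁅a, b⁆ := by
    rw [← h', mul_inv_rev, mul_assoc (p₀ a) (p₁ a), c1]
    group
  rw [map_commutatorElement, commutatorElement_def] at this
  have h2 : r₀ b * p₀ a * (r₀ b)⁻¹ = (p₀ (b * a * b⁻¹)) := by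
    have h3 : r₀ b * (p₀ a)⁻¹ * (r₀ b)⁻¹ = p₀ b * (p₀ a)⁻¹ * (p₀ b)⁻¹ := by
      calc r₀ b * (p₀ a)⁻¹ * (r₀ b)⁻¹ = (p₀ a)⁻¹ * (p₀ a * r₀ b * (p₀ a)⁻¹ * (r₀ b)⁻¹) := by group
        _ = (p₀ a)⁻¹ * (p₀ a * p₀ b * (p₀ a)⁻¹ * (p₀ b)⁻¹) := by rw [this]
        _ = p₀ b * (p₀ a)⁻¹ * (p₀ b)⁻¹ := by group
    have h4 := congrArg (·⁻¹) h3
    simp only [mul_inv_rev, inv_inv, ← mul_assoc] at h4
    rw [h4]; simp [map_mul]
  exact h2

/-- A coefficient split by the two halves of a partition through which its meets factor. -/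
lemma split_of_meet (hn : 8 ≤ n) {e r₀ r₁ p₀ p₁ : Alt n →* H} (h₀ : Meet e r₀ p₀)
    (h₁ : Meet e r₁ p₁) (hr : Comm r₀ r₁) (hu : ∀ a b : Alt n, ⁅e a, r₀ b * r₁ b⁆ = e ⁅a, b⁆) :
    Split p₀ p₁ e ∧ Comm p₁ r₀ ∧ Comm p₀ r₁ := by
  have c : Comm p₀ p₁ := Meet.orth hn h₀ h₁ hr (sep_self e) h₁.sep h₀.symm.sep
  have c1 : Comm p₁ r₀ := Meet.orth hn h₁ (Meet.self r₀) hr.symm h₀.sep h₀.sep hr.symm.sep
  have c0 : Comm p₀ r₁ := Meet.orth hn h₀ (Meet.self r₁) hr h₁.sep h₁.sep hr.sep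
  let m : Alt n →* H := MonoidHom.mk' (fun a => p₀ a * p₁ a) fun a b => by
    rw [map_mul, map_mul]
    simp only [mul_assoc]
    rw [← mul_assoc (p₀ b), (c b a).eq, mul_assoc]
  have : e = m := hom_ext_commutator (by omega) fun a b => by
    show e ⁅a, b⁆ = p₀ ⁅a, b⁆ * p₁ ⁅a, b⁆
    rw [← hu, ← h₀, ← h₁]
    have hc : Commute ⁅e a, r₁ b⁆ (r₀ b) := by rw [h₁]; exact c1 _ _
    simp only [commutatorElement_def] at hc ⊢
    have := hc.eq
    calc e a * (r₀ b * r₁ b) * (e a)⁻¹ * (r₀ b * r₁ b)⁻¹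
        = e a * r₀ b * (e a)⁻¹ * ((e a * r₁ b * (e a)⁻¹ * (r₁ b)⁻¹) * (r₀ b)⁻¹) := by group
      _ = e a * r₀ b * (e a)⁻¹ * ((r₀ b)⁻¹ * (e a * r₁ b * (e a)⁻¹ * (r₁ b)⁻¹)) := by
          rw [hc.inv_right.eq]
      _ = _ := by group
  exact ⟨⟨c, fun a => DFunLike.congr_fun this a⟩, c1, c0⟩

/-- A commuting complement of one piece. -/
lemma exists_complement (hn : 5 ≤ n) {g μ : Alt n →* H}
    (h : ∀ a b : Alt n, ∀ c, Commute ((μ ⁅a, b⁆)⁻¹ * g ⁅a, b⁆) (μ c)) :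
    ∃ ν : Alt n →* H, Comm μ ν ∧ ∀ a, g a = μ a * ν a := by
  let f : Alt n → H := fun c => (μ c)⁻¹ * g c
  have fmul : ∀ x y, (∀ z, Commute (f x) (μ z)) → f (x * y) = f x * f y := by
    intro x y hx
    have := (hx y).inv_right.eq
    simp only [f, map_mul, mul_inv_rev]
    calc (μ y)⁻¹ * (μ x)⁻¹ * (g x * g y) = ((μ y)⁻¹ * ((μ x)⁻¹ * g x)) * g y := by group
      _ = (((μ x)⁻¹ * g x) * (μ y)⁻¹) * g y := by rw [this]
      _ = (μ x)⁻¹ * g x * ((μ y)⁻¹ * g y) := by group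
  let K : Subgroup (Alt n) :=
    { carrier := {x | ∀ z, Commute (f x) (μ z)}
      one_mem' := fun z => by simp [f]
      mul_mem' := fun {x y} hx hy z => by rw [fmul x y hx]; exact (hx z).mul_left (hy z)
      inv_mem' := fun {x} hx z => by
        have h1 := fmul x x⁻¹ hx
        rw [mul_inv_cancel, show f 1 = 1 by simp [f]] at h1
        rw [show f x⁻¹ = (f x)⁻¹ from (eq_inv_of_mul_eq_one_right h1.symm)]
        exact (hx z).inv_left }
  have top : K = ⊤ := top_unique <| closure_commutators hn ▸ (Subgroup.closure_le K).2 (by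
    rintro _ ⟨⟨a, b⟩, rfl⟩; exact h a b)
  have hall : ∀ x z, Commute (f x) (μ z) := fun x => (top ▸ Subgroup.mem_top x : x ∈ K)
  exact ⟨MonoidHom.mk' f fun x y => fmul x y (hall x), fun a b => (hall b a).symm,
    fun a => (mul_inv_cancel_left _ _).symm⟩

/-- The cell theorem. -/
theorem cell (hn : 8 ≤ n) {e f g r₀ r₁ p₀ p₁ q₀ q₁ μ : Alt n →* H} (hg : Meet e f g)
    (hp₀ : Meet e r₀ p₀) (hp₁ : Meet e r₁ p₁) (hq₀ : Meet f r₀ q₀) (hq₁ : Meet f r₁ q₁)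
    (hr : Comm r₀ r₁) (hue : ∀ a b : Alt n, ⁅e a, r₀ b * r₁ b⁆ = e ⁅a, b⁆)
    (huf : ∀ a b : Alt n, ⁅f a, r₀ b * r₁ b⁆ = f ⁅a, b⁆) (hμ : Meet p₀ q₀ μ) :
    Meet g r₀ μ ∧ ∃ ν, Meet p₁ q₁ ν ∧ Meet g r₁ ν ∧ Split μ ν g := by
  obtain ⟨se, hp₁r, hp₀r⟩ := split_of_meet hn hp₀ hp₁ hr hue
  obtain ⟨sf, hq₁r, hq₀r⟩ := split_of_meet hn hq₀ hq₁ hr huf
  have c01 : Comm p₀ q₁ := Meet.orth hn hp₀ hq₁ hr hg.sep hp₁.sep hq₀.symm.sep
  have c10 : Comm p₁ q₀ := Meet.orth hn hp₁ hq₀ hr.symm hg.sep hp₀.sep hq₁.symm.sep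
  -- the commutator of the two coefficients, piece by piece
  have pieces : ∀ a b : Alt n, g ⁅a, b⁆ = μ ⁅a, b⁆ * ⁅p₁ a, q₁ b⁆ ∧
      ∀ c, Commute ⁅p₁ a, q₁ b⁆ (μ c) := by
    intro a b
    have hM : ∀ c d, Commute ⁅p₁ a, q₁ b⁆ ⁅p₀ c, q₀ d⁆ := fun c d =>
      commute_commutator (se.1 c a).symm (c10 a d) (c01 c b).symm (sf.1 d b).symm
    refine ⟨?_, ?_⟩
    · rw [← hg, ← hμ, se.2, sf.2, commutatorElement_def, commutatorElement_def,
        commutatorElement_def]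
      have e1 := (c10 a b).eq
      have e2 := (c01 a b).inv_left.eq
      have e3 := ((se.1 a a).symm).eq
      have e4 := ((sf.1 b b).symm).eq
      have l : Commute (p₁ a * q₁ b * (p₁ a)⁻¹) (q₀ b)⁻¹ :=
        (((c10 a b).mul_left (sf.1 b b).symm).mul_left (c10 a b).inv_left).inv_right
      have l' : Commute (p₁ a * q₁ b * (p₁ a)⁻¹) (p₀ a)⁻¹ :=
        (((se.1 a a).symm.mul_left (c01 a b).symm).mul_left (se.1 a a).symm.inv_left).inv_right
      calc p₀ a * p₁ a * (q₀ b * q₁ b) * (p₀ a * p₁ a)⁻¹ * (q₀ b * q₁ b)⁻¹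
          = p₀ a * (p₁ a * q₀ b) * (q₁ b * (p₁ a)⁻¹ * (p₀ a)⁻¹) * (q₁ b)⁻¹ * (q₀ b)⁻¹ := by group
        _ = p₀ a * q₀ b * ((p₁ a * q₁ b * (p₁ a)⁻¹) * (p₀ a)⁻¹) * (q₁ b)⁻¹ * (q₀ b)⁻¹ := by
            rw [e1]; group
        _ = p₀ a * q₀ b * (p₀ a)⁻¹ * ((p₁ a * q₁ b * (p₁ a)⁻¹) * ((q₁ b)⁻¹ * (q₀ b)⁻¹)) := by
            rw [l'.eq]; group
        _ = p₀ a * q₀ b * (p₀ a)⁻¹ * ((p₁ a * q₁ b * (p₁ a)⁻¹) * (q₀ b)⁻¹ * (q₁ b)⁻¹) := by
            rw [(sf.1 b b).inv_inv.symm.eq]; group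
        _ = p₀ a * q₀ b * (p₀ a)⁻¹ * (q₀ b)⁻¹ * (p₁ a * q₁ b * (p₁ a)⁻¹ * (q₁ b)⁻¹) := by
            rw [l.eq]; group
    · intro c
      let K := (Subgroup.centralizer {⁅p₁ a, q₁ b⁆}).comap μ
      have top : K = ⊤ := top_unique <| closure_commutators (n := n) (by omega) ▸
        (Subgroup.closure_le K).2 (by
          rintro _ ⟨⟨c, d⟩, rfl⟩
          rw [SetLike.mem_coe, Subgroup.mem_comap, Subgroup.mem_centralizer_singleton_iff, ← hμ]
          exact (hM c d).eq.symm)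
      have hc : c ∈ K := top ▸ Subgroup.mem_top c
      rw [Subgroup.mem_comap, Subgroup.mem_centralizer_singleton_iff] at hc
      exact hc.symm
  obtain ⟨ν, hμν, hgμν⟩ := exists_complement (by omega) (g := g) (μ := μ) fun a b c => by
    rw [(pieces a b).1, inv_mul_cancel_left]; exact (pieces a b).2 c
  have hν : Meet p₁ q₁ ν := fun a b => by
    have h := (pieces a b).1
    rw [hgμν] at h
    exact (mul_left_cancel h).symm
  -- how the halves move the two pieces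
  have side : ∀ {r p q p' q' m : Alt n →* H}, Meet p q m → Split p p' e → Meet e r p → Comm p' r →
      Split q q' f → Meet f r q → Comm q' r →
      ∀ x c : Alt n, r x * m c * (r x)⁻¹ = m (x * c * x⁻¹) := by
    intro r p q p' q' m hm hs1 he h1 hs2 hf h2 x c
    have : ((MulAut.conj (r x)).toMonoidHom.comp m) = m.comp (MulAut.conj x).toMonoidHom := by
      refine hom_ext_commutator (by omega) fun a b => ?_
      simp only [MonoidHom.comp_apply, MulEquiv.coe_toMonoidHom]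
      rw [← hm, map_commutatorElement, MulAut.conj_apply, MulAut.conj_apply,
        Meet.conj_part hs1 he h1, Meet.conj_part hs2 hf h2, hm, map_commutatorElement]
      simp
    simpa using DFunLike.congr_fun this c
  have other : ∀ {r p q m : Alt n →* H}, Meet p q m → Comm p r → Comm q r → Comm m r := by
    intro r p q m hm h1 h2
    have : ∀ x, ((MulAut.conj (r x)).toMonoidHom.comp m) = m := fun x => by
      refine hom_ext_commutator (by omega) fun a b => ?_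
      simp only [MonoidHom.comp_apply, MulEquiv.coe_toMonoidHom]
      rw [← hm, map_commutatorElement, MulAut.conj_apply, MulAut.conj_apply,
        ← (h1 a x).eq, ← (h2 b x).eq, mul_inv_cancel_right, mul_inv_cancel_right]
    intro c x
    have h := DFunLike.congr_fun (this x) c
    simp only [MonoidHom.comp_apply, MulEquiv.coe_toMonoidHom, MulAut.conj_apply] at h
    exact (eq_mul_inv_iff_mul_eq.1 h.symm)
  -- hence the commutators
  have meetg : ∀ {r m k : Alt n →* H}, Split m k g → Comm k r →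
      (∀ x c : Alt n, r x * m c * (r x)⁻¹ = m (x * c * x⁻¹)) → Meet g r m := by
    intro r m k hs hk hr c x
    rw [hs.2, map_commutatorElement, commutatorElement_def, commutatorElement_def]
    have h := hr x c⁻¹
    simp only [map_mul, map_inv] at h
    calc m c * k c * r x * (m c * k c)⁻¹ * (r x)⁻¹
        = m c * (k c * r x) * (k c)⁻¹ * (m c)⁻¹ * (r x)⁻¹ := by group
      _ = m c * (r x * (m c)⁻¹ * (r x)⁻¹) := by rw [(hk c x).eq]; group
      _ = m c * m x * (m c)⁻¹ * (m x)⁻¹ := by rw [h]; group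
  refine ⟨meetg ⟨hμν, hgμν⟩ (other hν hp₁r hq₁r) (side hμ se hp₀ hp₁r sf hq₀ hq₁r),
    ν, hν, meetg ⟨hμν.symm, fun a => (hgμν a).trans (hμν a a).eq⟩ (other hμ hp₀r hq₀r)
      (side hν se.symm hp₁ hp₀r sf.symm hq₁ hq₀r), hμν, hgμν⟩

end Vale.Agent.P196.Full.Calculus
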