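import Mathlib

/-!
# P196: three-cycles of colours

Coordinates for three-cycles, and generation of the alternating group by three-cycles and by
commutators.
-/

namespace Vale.Agent.P196.Full.Calculus

open Equiv Equiv.Perm
open scoped commutatorElement

/-- The alternating group on `n` colours. -/
abbrev Alt (n : ℕ) := alternatingGroup (Fin n)

variable {n : ℕ}

/-- Three distinct colours. -/
def Dist (a b c : Fin n) : Prop := a ≠ b ∧ b ≠ c ∧ a ≠ c

/-- The three-cycle `a → b → c → a`. -/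
def cyc (a b c : Fin n) (h : Dist a b c) : Alt n :=
  ⟨swap a b * swap b c, by
    rw [mem_alternatingGroup, map_mul, sign_swap h.1, sign_swap h.2.1]; decide⟩

lemma cyc_coe (a b c : Fin n) (h : Dist a b c) :
    ((cyc a b c h : Alt n) : Perm (Fin n)) = swap a b * swap b c := rfl

lemma cyc_apply_of_ne (a b c : Fin n) (h : Dist a b c) {x : Fin n} (ha : x ≠ a) (hb : x ≠ b)
    (hc : x ≠ c) : (cyc a b c h : Perm (Fin n)) x = x := by
  rw [cyc_coe, Perm.mul_apply, swap_apply_of_ne_of_ne hb hc, swap_apply_of_ne_of_ne ha hb]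

lemma cyc_apply_fst (a b c : Fin n) (h : Dist a b c) : (cyc a b c h : Perm (Fin n)) a = b := by
  rw [cyc_coe, Perm.mul_apply, swap_apply_of_ne_of_ne h.1 h.2.2, swap_apply_left]

lemma cyc_apply_snd (a b c : Fin n) (h : Dist a b c) : (cyc a b c h : Perm (Fin n)) b = c := by
  rw [cyc_coe, Perm.mul_apply, swap_apply_left, swap_apply_of_ne_of_ne h.2.2.symm h.2.1.symm]

lemma cyc_apply_thd (a b c : Fin n) (h : Dist a b c) : (cyc a b c h : Perm (Fin n)) c = a := by
  rw [cyc_coe, Perm.mul_apply, swap_apply_right, swap_apply_right]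

lemma cyc_rotate (a b c : Fin n) (h : Dist a b c) (h' : Dist b c a) :
    cyc a b c h = cyc b c a h' := by
  refine Subtype.ext (Equiv.ext fun x => ?_)
  by_cases ha : x = a
  · subst ha; rw [cyc_apply_fst, cyc_apply_thd]
  by_cases hb : x = b
  · subst hb; rw [cyc_apply_snd, cyc_apply_fst]
  by_cases hc : x = c
  · subst hc; rw [cyc_apply_thd, cyc_apply_snd]
  rw [cyc_apply_of_ne _ _ _ _ ha hb hc, cyc_apply_of_ne _ _ _ _ hb hc ha]

/-- Conjugation relabels the colours. -/
lemma conj_cyc (k : Alt n) (a b c : Fin n) (h : Dist a b c)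
    (h' : Dist ((k : Perm (Fin n)) a) ((k : Perm (Fin n)) b) ((k : Perm (Fin n)) c)) :
    k * cyc a b c h * k⁻¹ =
      cyc ((k : Perm (Fin n)) a) ((k : Perm (Fin n)) b) ((k : Perm (Fin n)) c) h' := by
  refine Subtype.ext ?_
  rw [Subgroup.coe_mul, Subgroup.coe_mul, Subgroup.coe_inv, cyc_coe, cyc_coe,
    Equiv.swap_apply_apply, Equiv.swap_apply_apply]
  group

lemma dist_map (k : Alt n) {a b c : Fin n} (h : Dist a b c) :
    Dist ((k : Perm (Fin n)) a) ((k : Perm (Fin n)) b) ((k : Perm (Fin n)) c) :=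
  ⟨fun e => h.1 ((k : Perm (Fin n)).injective e), fun e => h.2.1 ((k : Perm (Fin n)).injective e),
    fun e => h.2.2 ((k : Perm (Fin n)).injective e)⟩

/-- Disjointly supported elements. -/
def Apart (a b : Alt n) : Prop := Perm.Disjoint (a : Perm (Fin n)) (b : Perm (Fin n))

lemma Apart.symm {a b : Alt n} (h : Apart a b) : Apart b a := Perm.Disjoint.symm h

lemma apart_cyc {a b c a' b' c' : Fin n} (h : Dist a b c) (h' : Dist a' b' c')
    (ha : a ≠ a' ∧ a ≠ b' ∧ a ≠ c') (hb : b ≠ a' ∧ b ≠ b' ∧ b ≠ c')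
    (hc : c ≠ a' ∧ c ≠ b' ∧ c ≠ c') : Apart (cyc a b c h) (cyc a' b' c' h') := by
  intro x
  by_cases e : x = a' ∨ x = b' ∨ x = c'
  · left
    refine cyc_apply_of_ne _ _ _ _ ?_ ?_ ?_ <;> rcases e with rfl | rfl | rfl
    exacts [ha.1.symm, ha.2.1.symm, ha.2.2.symm, hb.1.symm, hb.2.1.symm, hb.2.2.symm,
      hc.1.symm, hc.2.1.symm, hc.2.2.symm]
  · simp only [not_or] at e
    exact Or.inr (cyc_apply_of_ne _ _ _ _ e.1 e.2.1 e.2.2)

/-- The commutator of two three-cycles meeting in one colour. -/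
lemma commutator_cyc {a b c d e : Fin n} (h1 : Dist a b c) (h2 : Dist c d e) (h3 : Dist c a d)
    (hae : a ≠ e) (hbd : b ≠ d) (hbe : b ≠ e) :
    ⁅cyc a b c h1, cyc c d e h2⁆ = cyc c a d h3 := by
  have hinv : ∀ (a b c : Fin n) (h : Dist a b c) (h' : Dist c b a),
      (cyc a b c h)⁻¹ = cyc c b a h' := by
    intro a b c h h'
    refine Subtype.ext ?_
    rw [Subgroup.coe_inv, cyc_coe, cyc_coe, mul_inv_rev, swap_inv, swap_inv, swap_comm b c,
      swap_comm a b]
  have hd : Dist c b a := ⟨h1.2.1.symm, h1.1.symm, h1.2.2.symm⟩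
  rw [commutatorElement_def, mul_assoc (cyc a b c h1), mul_assoc (cyc a b c h1),
    hinv a b c h1 hd, conj_cyc _ c b a hd (dist_map _ hd)]
  refine Subtype.ext ?_
  have e1 : (swap c d * swap d e) c = d := cyc_apply_fst c d e h2
  have e2 : (swap c d * swap d e) b = b := cyc_apply_of_ne c d e h2 h1.2.1 hbd hbe
  have e3 : (swap c d * swap d e) a = a := cyc_apply_of_ne c d e h2 h1.2.2 h3.2.1 hae
  simp only [Subgroup.coe_mul, cyc_coe, e1, e2, e3]
  obtain ⟨hab, hbc, hac⟩ := h1
  obtain ⟨hca, had, hcd⟩ := h3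
  refine Equiv.ext fun x => ?_
  simp only [Perm.mul_apply, Equiv.swap_apply_def]
  grind

lemma exists_fresh (l : List (Fin n)) (hl : l.length < n) : ∃ x, x ∉ l := by
  by_contra h
  push Not at h
  have hsub : (Finset.univ : Finset (Fin n)) ⊆ l.toFinset := fun x _ => by simp [h x]
  have := (Finset.card_le_card hsub).trans l.toFinset_card_le
  rw [Finset.card_univ, Fintype.card_fin] at this
  omega

/-- A subgroup containing every three-cycle is everything. -/
lemma eq_top_of_cyc (K : Subgroup (Alt n)) (h : ∀ a b c hd, cyc a b c hd ∈ K) : K = ⊤ := by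
  rw [eq_top_iff, ← alternatingGroup.closure_isThreeCycles_eq_top, Subgroup.closure_le]
  intro g hg
  obtain ⟨a, ha⟩ : ∃ a, a ∈ (g : Perm (Fin n)).support :=
    Finset.card_pos.1 (by rw [IsThreeCycle.card_support hg]; norm_num)
  have e := (IsThreeCycle.eq_swap_mul_swap_iff_mem_support hg).2 ha
  have hn := (IsThreeCycle.nodup_iff_mem_support hg).2 ha
  simp only [List.nodup_cons, List.mem_cons, List.not_mem_nil, or_false, not_or] at hn
  have hd : Dist a ((g : Perm (Fin n)) a) ((g : Perm (Fin n)) ((g : Perm (Fin n)) a)) :=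
    ⟨hn.1.1, hn.2.1, hn.1.2⟩
  have : g = cyc _ _ _ hd := Subtype.ext e
  rw [this]
  exact h _ _ _ hd

/-- With five colours every element is a product of commutators. -/
lemma closure_commutators (hn : 5 ≤ n) :
    Subgroup.closure (Set.range fun x : Alt n × Alt n => ⁅x.1, x.2⁆) = ⊤ := by
  refine eq_top_of_cyc _ fun c a d hd => ?_
  obtain ⟨b, hb⟩ := exists_fresh [c, a, d] (by simp only [List.length_cons, List.length_nil]; omega)
  obtain ⟨e, he⟩ := exists_fresh [c, a, d, b]
    (by simp only [List.length_cons, List.length_nil]; omega)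
  simp only [List.mem_cons, List.not_mem_nil, or_false, not_or] at hb he
  obtain ⟨h1, h2, h3⟩ := hd
  have d1 : Dist a b c := ⟨Ne.symm hb.2.1, hb.1, h1.symm⟩
  have d2 : Dist c d e := ⟨h3, Ne.symm he.2.2.1, Ne.symm he.1⟩
  refine Subgroup.subset_closure ⟨(cyc a b c d1, cyc c d e d2), ?_⟩
  exact commutator_cyc d1 d2 ⟨h1, h2, h3⟩ (Ne.symm he.2.1) hb.2.2 (Ne.symm he.2.2.2)

/-- Two homomorphisms agreeing on commutators are equal. -/
lemma hom_ext_commutator {H : Type*} [Group H] (hn : 5 ≤ n) {f g : Alt n →* H}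
    (h : ∀ a b : Alt n, f ⁅a, b⁆ = g ⁅a, b⁆) : f = g :=
  MonoidHom.eq_of_eqOn_dense (closure_commutators hn) (by rintro _ ⟨x, rfl⟩; exact h _ _)

end Vale.Agent.P196.Full.Calculus
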