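import Vale.Agent.P196.Full.Calculus.Projective

/-!
# P196: finite families of pairwise compatible partitions

In a closed setting (trivial centre, generators local in three colours) pairwise compatibility gives
a common refinement, and what holds on the non-trivial blocks of a refinement holds algebraically.
-/

namespace Vale.Agent.P196.Full.Calculus

open scoped commutatorElement

variable {n : ℕ} {H : Type*} [Group H]

/-- A group in which the calculus is closed: trivial centre, and generators each of which is
attached to at most three colours. -/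
structure Closed (G : Set H) (col : H → List (Fin n)) : Prop where
  colours : 8 ≤ n
  center : Subgroup.center H = ⊥
  gen : Subgroup.closure G = ⊤
  short : ∀ g ∈ G, (col g).length ≤ 3

namespace Part

variable {u : Alt n →* H} {G : Set H} {col : H → List (Fin n)} {I J K : Type*}

/-- Every generator commutes with the partition away from its colours. -/
def Local [DecidableEq I] (G : Set H) (col : H → List (Fin n)) (P : Part u I) : Prop :=
  ∀ g ∈ G, Away P (col g) g

/-- The join of local partitions is local. -/
lemma Local.joint [DecidableEq I] [DecidableEq J] (hc : Closed G col) {P : Part u I}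
    {Q : Part u J} {T : Part u (I × J)} (hP : Local G col P) (hQ : Local G col Q)
    (hT : IsJoint P Q T) : Local G col T := by
  rintro g hg ⟨i, j⟩ c a d hd hcC haC hdC
  obtain ⟨x, y, h1, h2, e, hx, hy⟩ := exists_commutator hd (col g)
    (by have := hc.short g hg; have := hc.colours; omega) hcC haC hdC
  rw [← e, ← hT.meet, commutatorElement_def]
  have c1 := hP g hg i _ _ _ h1 (hx _ (by simp)) (hx _ (by simp)) (hx _ (by simp))
  have c2 := hQ g hg j _ _ _ h2 (hy _ (by simp)) (hy _ (by simp)) (hy _ (by simp))
  exact ((c1.mul_right c2).mul_right c1.inv_right).mul_right c2.inv_right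

/-- Local partitions stay local under coarsening. -/
lemma Local.of_refines [Finite I] [DecidableEq I] [DecidableEq J] {R : Part u I} {P : Part u J}
    {f : I → J} (h : Refines R f P) (hR : Local G col R) : Local G col P := by
  intro g hg j a b c hd ha hb hc
  rw [atom_apply, ← h, merge_apply]
  refine commute_pi R.hom _ _ fun i => ?_
  by_cases hi : f i = j
  · subst hi; simp only [Function.comp_apply, Pi.mulSingle_eq_same]
    exact hR g hg i a b c hd ha hb hc
  · simp only [Function.comp_apply, Pi.mulSingle_eq_of_ne hi, Pi.mulSingle_one, map_one]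
    exact Commute.one_right _

/-- The trivial partition. -/
def unit (u : Alt n →* H) [Inhabited I] : Part u I where
  hom := u.comp (Pi.evalMonoidHom (fun _ : I => Alt n) default)
  hom_const _ := rfl

/-- What holds on the non-trivial blocks of a common refinement holds. -/
theorem Refines.of_forall {L : Type*} [Finite L] [DecidableEq L] {R : Part u L} {P : Part u I}
    {Q : Part u J} {f : L → I} {h : L → J} {g : I → J} (hP : Refines R f P) (hQ : Refines R h Q)
    (hfh : ∀ z, R.atom z ≠ 1 → g (f z) = h z) : Refines P g Q := by
  have := Fintype.ofFinite L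
  refine MonoidHom.ext fun y => ?_
  rw [merge_apply, ← hP, ← hQ, merge_apply, merge_apply]
  rw [← mul_inv_eq_one, ← map_inv, ← map_mul]
  refine Subgroup.pi_mem_of_mulSingle_mem (H := R.hom.ker) _ fun z => ?_
  rw [MonoidHom.mem_ker, ← atom_apply]
  by_cases hz : R.atom z = 1
  · rw [hz, MonoidHom.one_apply]
  · simp [Function.comp_apply, hfh z hz]

/-- A family of pairwise compatible local partitions has a local common refinement. -/
theorem exists_joint (hc : Closed G col) {L : Type*} [Finite L] [DecidableEq L] {X : Part u L}
    (hX : Local G col X) : ∀ {m : ℕ} {I : Fin m → Type} [∀ a, Finite (I a)]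
    [∀ a, DecidableEq (I a)] (P : ∀ a, Part u (I a)), (∀ a, Local G col (P a)) →
    (∀ a b, a < b → Compat (P a) (P b)) → (∀ a, Compat X (P a)) →
    ∃ R : Part u (L × ∀ a, I a), Refines R Prod.fst X ∧
      (∀ a, Refines R (fun z => z.2 a) (P a)) ∧ Local G col R := by
  intro m
  induction m generalizing L X with
  | zero =>
    intro I _ _ P _ _ _
    refine ⟨X.merge fun l => (l, fun a => a.elim0), rfl, fun a => a.elim0, ?_⟩
    refine Local.of_refines (R := X) (f := fun l => (l, fun a => a.elim0)) rfl hX
  | succ m ih =>
    intro I _ _ P hloc hpair hXP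
    classical
    obtain ⟨T, hT⟩ := hXP 0
    have hTP : ∀ a : Fin m, Compat T (P a.succ) := fun a =>
      let ⟨_, hS⟩ := hXP a.succ
      let ⟨_, hV⟩ := hpair 0 a.succ (Fin.succ_pos a)
      compat_join_of_center hc.colours hT hS hV hc.center hc.gen fun g hg =>
        ⟨col g, hc.short g hg, hX g hg, hloc 0 g hg, hloc a.succ g hg⟩
    obtain ⟨R, h1, h2, hR⟩ := ih (Local.joint hc hX (hloc 0) hT) (fun a => P a.succ)
      (fun a => hloc _) (fun a b hab => hpair _ _ (Fin.succ_lt_succ_iff.2 hab)) hTP
    refine ⟨R.merge fun z => (z.1.1, Fin.cons z.1.2 z.2), ?_, ?_, Local.of_refines rfl hR⟩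
    · refine MonoidHom.ext fun y => ?_
      simp only [← hT.1, merge_apply]
      rw [← h1, merge_apply]; rfl
    · intro a
      refine Fin.cases ?_ (fun a => ?_) a
      · refine MonoidHom.ext fun y => ?_
        simp only [← hT.2, merge_apply]
        rw [← h1, merge_apply]; rfl
      · refine MonoidHom.ext fun y => ?_
        rw [← h2 a, merge_apply, merge_apply, merge_apply]
        refine congrArg R.hom (funext fun z => ?_)
        simp [Function.comp_apply]

/-- The same without a base partition. -/
theorem exists_joint' (hc : Closed G col) (hu : Local G col (Part.unit u : Part u Unit)) {m : ℕ}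
    {I : Fin m → Type} [∀ a, Finite (I a)] [∀ a, DecidableEq (I a)] (P : ∀ a, Part u (I a))
    (hloc : ∀ a, Local G col (P a)) (hpair : ∀ a b, a < b → Compat (P a) (P b)) :
    ∃ R : Part u (∀ a, I a), (∀ a, Refines R (fun z => z a) (P a)) ∧ Local G col R := by
  classical
  have hone : ∀ a, Refines (P a) (fun _ => ()) (Part.unit u : Part u Unit) :=
    fun a => MonoidHom.ext fun y => (P a).hom_const (y ())
  obtain ⟨R, -, h2, hR⟩ := exists_joint hc hu P hloc hpair fun a =>
    (Compat.of_refines (hone a)).symm
  exact ⟨R.merge Prod.snd, fun a => h2 a, Local.of_refines rfl hR⟩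

end Part

end Vale.Agent.P196.Full.Calculus
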