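import Vale.Agent.P196.Full.Calculus.Colour

/-!
# P196: homomorphisms from lifts of three-cycles

A family indexed by triples of distinct colours that is invariant under rotation, has cube one,
is permuted by its own conjugations as the three-cycles are, and satisfies the one product relation
on four colours, extends to a homomorphism of the alternating group.
-/

namespace Vale.Agent.P196.Full.Calculus

open Equiv Equiv.Perm

variable {n : ℕ} {G : Type*} [Group G]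

lemma cyc_inv (a b c : Fin n) (h : Dist a b c) (h' : Dist c b a) :
    (cyc a b c h)⁻¹ = cyc c b a h' := by
  refine Subtype.ext ?_
  rw [Subgroup.coe_inv, cyc_coe, cyc_coe, mul_inv_rev, swap_inv, swap_inv, swap_comm b c,
    swap_comm a b]

lemma cyc_maps {p : Fin n → Prop} {a b c : Fin n} (h : Dist a b c) (ha : p a) (hb : p b)
    (hc : p c) {x : Fin n} (hx : p x) : p ((cyc a b c h : Perm (Fin n)) x) := by
  by_cases e₁ : x = a
  · subst e₁; rwa [cyc_apply_fst]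
  by_cases e₂ : x = b
  · subst e₂; rwa [cyc_apply_snd]
  by_cases e₃ : x = c
  · subst e₃; rwa [cyc_apply_thd]
  rwa [cyc_apply_of_ne _ _ _ _ e₁ e₂ e₃]

/-- The rules of lifts of three-cycles. -/
structure IsCycles (ℓ : Fin n → Fin n → Fin n → G) : Prop where
  rot : ∀ a b c, Dist a b c → ℓ a b c = ℓ b c a
  inv : ∀ a b c, Dist a b c → ℓ a c b = (ℓ a b c)⁻¹
  cube : ∀ a b c, Dist a b c → ℓ a b c * ℓ a b c * ℓ a b c = 1
  rel : ∀ a b c d, Dist a b d → Dist c a d → b ≠ c → ℓ a b d * ℓ c a d = ℓ c b d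
  conj : ∀ a b c (h : Dist a b c) p q u, Dist p q u → ℓ a b c * ℓ p q u * (ℓ a b c)⁻¹ =
    ℓ ((cyc a b c h : Perm (Fin n)) p) ((cyc a b c h : Perm (Fin n)) q)
      ((cyc a b c h : Perm (Fin n)) u)

namespace IsCycles

variable {ℓ : Fin n → Fin n → Fin n → G}

/-- The colour of the third place may be changed from the right. -/
lemma change (hℓ : IsCycles ℓ) {s b c d : Fin n} (h : Dist s b d) (h' : Dist s c d) (hbc : b ≠ c) :
    ℓ s b d = ℓ s b c * ℓ c b d := by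
  have h1 : Dist c s d := ⟨h'.1.symm, h'.2.2, h'.2.1⟩
  have h2 : Dist c b d := ⟨hbc.symm, h.2.1, h'.2.1⟩
  have hB : ℓ c s d = (ℓ s c d)⁻¹ := by
    rw [hℓ.rot c s d h1, hℓ.inv s c d h']
  have hA : ℓ s b d = ℓ c b d * ℓ s c d := by
    have := hℓ.rel s b c d h h1 hbc
    rw [hB] at this
    exact mul_inv_eq_iff_eq_mul.1 this
  rw [hA]
  have hc := hℓ.conj c b d h2 s c d h'
  rw [cyc_apply_of_ne c b d h2 h'.1 h.1 h.2.2, cyc_apply_fst, cyc_apply_thd] at hc
  rw [← mul_inv_eq_iff_eq_mul.1 hc]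

/-- The lifts of the three-cycles inside a set of colours. -/
def gens (ℓ : Fin n → Fin n → Fin n → G) (S : Finset (Fin n)) : Set (Alt n × G) :=
  {g | ∃ a b c, a ∈ S ∧ b ∈ S ∧ c ∈ S ∧ ∃ h : Dist a b c, g = (cyc a b c h, ℓ a b c)}

lemma fix_of_mem {S : Finset (Fin n)} {g : Alt n × G} (hg : g ∈ Subgroup.closure (gens ℓ S))
    {x : Fin n} (hx : x ∉ S) : (g.1 : Perm (Fin n)) x = x := by
  induction hg using Subgroup.closure_induction with
  | mem y hy =>
    obtain ⟨a, b, c, ha, hb, hc, h, rfl⟩ := hy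
    exact cyc_apply_of_ne a b c h (fun e => hx (e ▸ ha)) (fun e => hx (e ▸ hb))
      (fun e => hx (e ▸ hc))
  | one => rfl
  | mul y z _ _ hy hz => rw [Prod.fst_mul, Subgroup.coe_mul, Perm.mul_apply, hz, hy]
  | inv y _ hy => rw [Prod.fst_inv, Subgroup.coe_inv, Perm.inv_eq_iff_eq, hy]

/-- A lift of a three-cycle inside the colours. -/
lemma mem_gens {S : Finset (Fin n)} {a b c : Fin n} (ha : a ∈ S) (hb : b ∈ S) (hc : c ∈ S)
    (h : Dist a b c) : ((cyc a b c h, ℓ a b c) : Alt n × G) ∈ Subgroup.closure (gens ℓ S) :=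
  Subgroup.subset_closure ⟨a, b, c, ha, hb, hc, h, rfl⟩

/-- The union of the cosets over one more colour. -/
def cosets (ℓ : Fin n → Fin n → Fin n → G) (S : Finset (Fin n)) (s : Fin n) : Set (Alt n × G) :=
  {g | g ∈ Subgroup.closure (gens ℓ S) ∨ ∃ i j, i ∈ S ∧ j ∈ S ∧ ∃ h : Dist s i j,
    ∃ γ ∈ Subgroup.closure (gens ℓ S), g = (cyc s i j h, ℓ s i j) * γ}

lemma cosets_mul_old (hℓ : IsCycles ℓ) {S : Finset (Fin n)} {s : Fin n} (hs : s ∉ S)
    {a b c : Fin n} (ha : a ∈ S) (hb : b ∈ S) (hc : c ∈ S) (h : Dist a b c) {g : Alt n × G}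
    (hg : g ∈ cosets ℓ S s) : (cyc a b c h, ℓ a b c) * g ∈ cosets ℓ S s := by
  rcases hg with hg | ⟨i, j, hi, hj, hd, γ, hγ, rfl⟩
  · exact Or.inl (mul_mem (mem_gens ha hb hc h) hg)
  have hks := cyc_apply_of_ne a b c h (x := s) (fun e => hs (e ▸ ha)) (fun e => hs (e ▸ hb))
    (fun e => hs (e ▸ hc))
  have hd' := dist_map (cyc a b c h) hd
  rw [hks] at hd'
  refine Or.inr ⟨_, _, cyc_maps (p := fun x => x ∈ S) h ha hb hc hi,
    cyc_maps (p := fun x => x ∈ S) h ha hb hc hj, hd', _, mul_mem (mem_gens ha hb hc h) hγ, ?_⟩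
  have h1 := conj_cyc (cyc a b c h) s i j hd (by rwa [hks])
  have h2 := hℓ.conj a b c h s i j hd
  simp only [hks] at h1 h2
  rw [← mul_assoc, ← mul_assoc]
  congr 1
  exact Prod.ext (mul_inv_eq_iff_eq_mul.1 h1) (mul_inv_eq_iff_eq_mul.1 h2)

lemma cosets_mul_new (hℓ : IsCycles ℓ) {S : Finset (Fin n)} {s : Fin n}
    {a b : Fin n} (ha : a ∈ S) (hb : b ∈ S) (h : Dist s a b) {g : Alt n × G}
    (hg : g ∈ cosets ℓ S s) : (cyc s a b h, ℓ s a b) * g ∈ cosets ℓ S s := by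
  rcases hg with hg | ⟨i, j, hi, hj, hd, γ, hγ, rfl⟩
  · exact Or.inr ⟨a, b, ha, hb, h, g, hg, rfl⟩
  -- the third colour is ours to choose
  have change' : ∀ k, k ∈ S → ∀ hk : Dist s i k, ∃ δ ∈ Subgroup.closure (gens ℓ S),
      (cyc s i j hd, ℓ s i j) = ((cyc s i k hk, ℓ s i k) : Alt n × G) * δ := by
    intro k hk hd'
    by_cases e : j = k
    · subst e; exact ⟨1, one_mem _, (mul_one _).symm⟩
    have h' : Dist s k j := ⟨hd'.2.2, Ne.symm e, hd.2.2⟩
    have h2 : Dist k i j := ⟨hd'.2.1.symm, hd.2.1, Ne.symm e⟩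
    refine ⟨_, mem_gens hk hi hj h2, Prod.ext ?_ (hℓ.change hd h' hd'.2.1)⟩
    refine Subtype.ext ?_
    simp only [Prod.fst_mul, Subgroup.coe_mul, cyc_coe]
    obtain ⟨q1, q2, q3⟩ := hd
    obtain ⟨q4, q5, q6⟩ := h'
    obtain ⟨q7, q8, q9⟩ := h2
    refine Equiv.ext fun x => ?_
    simp only [Perm.mul_apply, Equiv.swap_apply_def]
    grind
  have hsq : ∀ (b' : Fin n) (h' : Dist s b' a) (h'' : Dist a b' s), b' = b →
      (cyc s a b h * cyc s a b h = cyc s b' a h') ∧ cyc s a b h * cyc s b' a h' = 1 := by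
    rintro b' h' h'' rfl
    have : cyc s b' a h' = (cyc s a b' h)⁻¹ := by
      rw [cyc_inv s a b' h ⟨h'.2.1, h.1.symm, h'.1.symm⟩,
        cyc_rotate b' a s ⟨h'.2.1, h.1.symm, h'.1.symm⟩ ⟨h.1.symm, h.2.2, h'.2.1.symm⟩,
        cyc_rotate a s b' ⟨h.1.symm, h.2.2, h'.2.1.symm⟩ h']
    refine ⟨?_, by rw [this, mul_inv_cancel]⟩
    rw [this]
    refine Subtype.ext ?_
    simp only [Subgroup.coe_mul, Subgroup.coe_inv, cyc_coe, mul_inv_rev, swap_inv]
    obtain ⟨q1, q2, q3⟩ := h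
    refine Equiv.ext fun x => ?_
    simp only [Perm.mul_apply, Equiv.swap_apply_def]
    grind
  have hba : Dist s b a := ⟨h.2.2, h.2.1.symm, h.1⟩
  obtain ⟨hs1, hs2⟩ := hsq b hba ⟨h.2.1, h.2.2.symm, h.1.symm⟩ rfl
  have hinv := hℓ.inv s a b h
  by_cases hia : i = a
  · subst hia
    obtain ⟨δ, hδ, e⟩ := change' b hb h
    refine Or.inr ⟨b, i, hb, hi, hba, δ * γ, mul_mem hδ hγ, ?_⟩
    rw [e, ← mul_assoc, ← mul_assoc, ← mul_assoc]
    congr 2
    refine Prod.ext hs1 ?_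
    show ℓ s i b * ℓ s i b = ℓ s b i
    rw [hinv]
    exact eq_inv_of_mul_eq_one_left (hℓ.cube s i b h)
  by_cases hib : i = b
  · subst hib
    obtain ⟨δ, hδ, e⟩ := change' a ha hba
    refine Or.inl ?_
    have : ((cyc s a i h, ℓ s a i) : Alt n × G) * (cyc s i a hba, ℓ s i a) = 1 := by
      refine Prod.ext hs2 ?_
      show ℓ s a i * ℓ s i a = 1
      rw [hinv, mul_inv_cancel]
    rw [e, ← mul_assoc, ← mul_assoc, this, one_mul]
    exact mul_mem hδ hγ
  have hd' : Dist s i a := ⟨hd.1, hia, h.1⟩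
  obtain ⟨δ, hδ, e⟩ := change' a ha hd'
  have hib' : Dist s i b := ⟨hd.1, hib, h.2.2⟩
  refine Or.inr ⟨i, b, hi, hb, hib', δ * γ, mul_mem hδ hγ, ?_⟩
  rw [e, ← mul_assoc, ← mul_assoc, ← mul_assoc]
  congr 2
  refine Prod.ext (Subtype.ext ?_) ?_
  · simp only [Prod.fst_mul, Subgroup.coe_mul, cyc_coe]
    obtain ⟨q1, q2, q3⟩ := h
    obtain ⟨q4, q5, q6⟩ := hd'
    obtain ⟨q7, q8, q9⟩ := hib'
    refine Equiv.ext fun x => ?_
    simp only [Perm.mul_apply, Equiv.swap_apply_def]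
    grind
  · show ℓ s a b * ℓ s i a = ℓ s i b
    have r1 : Dist a b s := ⟨h.2.1, h.2.2.symm, h.1.symm⟩
    have r2 : Dist i a s := ⟨hia, h.1.symm, hd.1.symm⟩
    rw [hℓ.rot s a b h, hℓ.rot s i a hd', hℓ.rot s i b hib']
    exact hℓ.rel a b i s r1 r2 (Ne.symm hib)

/-- One more colour. -/
lemma closure_insert (hℓ : IsCycles ℓ) {S : Finset (Fin n)} {s : Fin n} (hs : s ∉ S)
    {g : Alt n × G} (hg : g ∈ Subgroup.closure (gens ℓ (insert s S))) : g ∈ cosets ℓ S s := by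
  have step : ∀ y, y ∈ gens ℓ (insert s S) → ∀ z ∈ cosets ℓ S s, y * z ∈ cosets ℓ S s := by
    rintro y ⟨a, b, c, ha, hb, hc, h, rfl⟩ z hz
    simp only [Finset.mem_insert] at ha hb hc
    rcases ha with rfl | ha
    · exact cosets_mul_new hℓ (hb.resolve_left h.1.symm) (hc.resolve_left h.2.2.symm) h hz
    rcases hb with rfl | hb
    · have h' : Dist b c a := ⟨h.2.1, h.2.2.symm, h.1.symm⟩
      rw [cyc_rotate a b c h h', hℓ.rot a b c h]
      exact cosets_mul_new hℓ (hc.resolve_left h.2.1.symm) ha h' hz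
    rcases hc with rfl | hc
    · have h' : Dist b c a := ⟨h.2.1, h.2.2.symm, h.1.symm⟩
      have h'' : Dist c a b := ⟨h.2.2.symm, h.1, h.2.1.symm⟩
      rw [cyc_rotate a b c h h', cyc_rotate b c a h' h'', hℓ.rot a b c h, hℓ.rot b c a h']
      exact cosets_mul_new hℓ ha hb h'' hz
    exact cosets_mul_old hℓ hs ha hb hc h hz
  have inv_gens : ∀ y, y ∈ gens ℓ (insert s S) → y⁻¹ ∈ gens ℓ (insert s S) := by
    rintro y ⟨a, b, c, ha, hb, hc, h, rfl⟩
    have h' : Dist a c b := ⟨h.2.2, h.2.1.symm, h.1⟩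
    refine ⟨a, c, b, ha, hc, hb, h', Prod.ext ?_ (hℓ.inv a b c h).symm⟩
    show (cyc a b c h)⁻¹ = cyc a c b h'
    rw [cyc_inv a b c h ⟨h.2.1.symm, h.1.symm, h.2.2.symm⟩,
      cyc_rotate c b a ⟨h.2.1.symm, h.1.symm, h.2.2.symm⟩ ⟨h.1.symm, h.2.2, h.2.1⟩,
      cyc_rotate b a c ⟨h.1.symm, h.2.2, h.2.1⟩ h']
  induction hg using Subgroup.closure_induction_left with
  | one => exact Or.inl (one_mem _)
  | mul_left y hy z _ hz => exact step y hy z hz
  | inv_mul_cancel y hy z _ hz => exact step _ (inv_gens y hy) z hz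

/-- The lifts form a copy of the alternating group. -/
lemma eq_one_of_fst (hℓ : IsCycles ℓ) (S : Finset (Fin n)) :
    ∀ g ∈ Subgroup.closure (gens ℓ S), g.1 = 1 → g = 1 := by
  induction S using Finset.induction_on with
  | empty =>
    intro g hg _
    have : gens ℓ (∅ : Finset (Fin n)) = ∅ := by
      refine Set.eq_empty_of_forall_notMem ?_
      rintro y ⟨a, b, c, ha, -⟩
      simp at ha
    rwa [this, Subgroup.closure_empty, Subgroup.mem_bot] at hg
  | @insert s S hs ih =>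
    intro g hg h1
    rcases closure_insert hℓ hs hg with hg | ⟨i, j, hi, -, hd, γ, hγ, rfl⟩
    · exact ih g hg h1
    exfalso
    have e := congrArg (fun k : Alt n => (k : Perm (Fin n)) s) h1
    simp only [Prod.fst_mul, Subgroup.coe_mul, Perm.mul_apply, fix_of_mem hγ hs, cyc_apply_fst,
      OneMemClass.coe_one, Perm.one_apply] at e
    exact hd.1 e.symm

/-- The homomorphism through a family of lifts. -/
theorem exists_hom (hℓ : IsCycles ℓ) :
    ∃ μ : Alt n →* G, ∀ a b c h, μ (cyc a b c h) = ℓ a b c := by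
  let Γ := Subgroup.closure (gens ℓ (Finset.univ : Finset (Fin n)))
  let π : Γ →* Alt n := (MonoidHom.fst (Alt n) G).comp Γ.subtype
  have inj : Function.Injective π := (injective_iff_map_eq_one π).2 fun g hg =>
    Subtype.ext (eq_one_of_fst hℓ _ g.1 g.2 hg)
  have surj : Function.Surjective π := by
    have : π.range = ⊤ := eq_top_of_cyc _ fun a b c h =>
      ⟨⟨_, mem_gens (Finset.mem_univ a) (Finset.mem_univ b) (Finset.mem_univ c) h⟩, rfl⟩
    exact MonoidHom.range_eq_top.1 this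
  let e := MulEquiv.ofBijective π ⟨inj, surj⟩
  refine ⟨((MonoidHom.snd (Alt n) G).comp Γ.subtype).comp e.symm.toMonoidHom, fun a b c h => ?_⟩
  have : e.symm (cyc a b c h) =
      ⟨_, mem_gens (Finset.mem_univ a) (Finset.mem_univ b) (Finset.mem_univ c) h⟩ :=
    e.symm_apply_eq.2 rfl
  simp [this]

end IsCycles

end Vale.Agent.P196.Full.Calculus
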