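import Vale.Agent.P196.Full.Calculus.Colour

/-!
# P196: meets of coefficient homomorphisms

A coefficient is a homomorphism `e : Alt n →* H`, thought of as `a ↦ a` placed on a clopen set.
The meet of two coefficients is read off from commutators.
-/

namespace Vale.Agent.P196.Full.Calculus

open Equiv Equiv.Perm
open scoped commutatorElement

variable {n : ℕ} {H : Type*} [Group H]

/-- The images commute. -/
def Comm (e f : Alt n →* H) : Prop := ∀ a b, Commute (e a) (f b)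

/-- Disjointly coloured images commute. -/
def Sep (e f : Alt n →* H) : Prop := ∀ a b, Apart a b → Commute (e a) (f b)

/-- `g` is the meet of `e` and `f`. -/
def Meet (e f g : Alt n →* H) : Prop := ∀ a b : Alt n, ⁅e a, f b⁆ = g ⁅a, b⁆

lemma Comm.symm {e f : Alt n →* H} (h : Comm e f) : Comm f e := fun a b => (h b a).symm

lemma Sep.symm {e f : Alt n →* H} (h : Sep e f) : Sep f e := fun a b hab => (h b a hab.symm).symm

lemma Comm.sep {e f : Alt n →* H} (h : Comm e f) : Sep e f := fun a b _ => h a b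

lemma Meet.self (e : Alt n →* H) : Meet e e e := fun a b => (map_commutatorElement e a b).symm

lemma Meet.sep {e f g : Alt n →* H} (h : Meet e f g) : Sep e f := by
  intro a b hab
  have hc : Commute a b := Subtype.ext (Perm.Disjoint.commute hab).eq
  rw [← commutatorElement_eq_one_iff_commute, h, commutatorElement_eq_one_iff_commute.2 hc,
    map_one]

lemma sep_self (e : Alt n →* H) : Sep e e := (Meet.self e).sep

lemma Meet.symm {e f g : Alt n →* H} (h : Meet e f g) : Meet f e g := fun a b => by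
  rw [← commutatorElement_inv, h b a, ← map_inv, commutatorElement_inv]

lemma Meet.of_comm {e f : Alt n →* H} (h : Comm e f) : Meet e f 1 := fun a b => by
  rw [MonoidHom.one_apply, commutatorElement_eq_one_iff_commute]; exact h a b

lemma Meet.comm_of_one {e f : Alt n →* H} (h : Meet e f 1) : Comm e f := fun a b => by
  rw [← commutatorElement_eq_one_iff_commute]; exact h a b

lemma Meet.unique (hn : 5 ≤ n) {e f g g' : Alt n →* H} (h : Meet e f g) (h' : Meet e f g') :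
    g = g' := hom_ext_commutator hn fun a b => (h a b).symm.trans (h' a b)

/-- A subgroup with every three-cycle meeting a fixed one in at most one colour, placed last,
is everything. -/
lemma eq_top_of_upToOne (hn : 8 ≤ n) (K : Subgroup (Alt n)) (p q u : Fin n)
    (hK : ∀ s t v d, s ≠ p ∧ s ≠ q ∧ s ≠ u → t ≠ p ∧ t ≠ q ∧ t ≠ u → cyc s t v d ∈ K) :
    K = ⊤ := by
  have two : ∀ s t v d, s ≠ p ∧ s ≠ q ∧ s ≠ u → cyc s t v d ∈ K := by
    intro s t v d h1
    obtain ⟨x, hx⟩ := exists_fresh [p, q, u, s, t, v]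
      (by simp only [List.length_cons, List.length_nil]; omega)
    obtain ⟨y, hy⟩ := exists_fresh [p, q, u, s, t, v, x]
      (by simp only [List.length_cons, List.length_nil]; omega)
    simp only [List.mem_cons, List.not_mem_nil, or_false, not_or] at hx hy
    have dk : Dist y x t := ⟨hy.2.2.2.2.2.2, hx.2.2.2.2.1, hy.2.2.2.2.1⟩
    have hk : cyc y x t dk ∈ K :=
      hK _ _ _ _ ⟨hy.1, hy.2.1, hy.2.2.1⟩ ⟨hx.1, hx.2.1, hx.2.2.1⟩
    have db : Dist s x v := ⟨Ne.symm hx.2.2.2.1, hx.2.2.2.2.2, d.2.2⟩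
    have hbase : cyc s x v db ∈ K := hK _ _ _ _ h1 ⟨hx.1, hx.2.1, hx.2.2.1⟩
    have hconj := K.mul_mem (K.mul_mem hk hbase) (K.inv_mem hk)
    rw [conj_cyc _ _ _ _ _ (dist_map _ db)] at hconj
    have es := cyc_apply_of_ne y x t dk (x := s) (Ne.symm hy.2.2.2.1) (Ne.symm hx.2.2.2.1) d.1
    have ev := cyc_apply_of_ne y x t dk (x := v) (Ne.symm hy.2.2.2.2.2.1) (Ne.symm hx.2.2.2.2.2)
      d.2.1.symm
    have ex := cyc_apply_snd y x t dk
    convert hconj using 2 <;> simp [es, ev, ex]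
  refine eq_top_of_cyc K fun s t v d => ?_
  obtain ⟨x, hx⟩ := exists_fresh [p, q, u, s, t, v]
    (by simp only [List.length_cons, List.length_nil]; omega)
  obtain ⟨y, hy⟩ := exists_fresh [p, q, u, s, t, v, x]
    (by simp only [List.length_cons, List.length_nil]; omega)
  simp only [List.mem_cons, List.not_mem_nil, or_false, not_or] at hx hy
  have dk : Dist y x s := ⟨hy.2.2.2.2.2.2, hx.2.2.2.1, hy.2.2.2.1⟩
  have hk : cyc y x s dk ∈ K := hK _ _ _ _ ⟨hy.1, hy.2.1, hy.2.2.1⟩ ⟨hx.1, hx.2.1, hx.2.2.1⟩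
  have db : Dist x t v := ⟨hx.2.2.2.2.1, d.2.1, hx.2.2.2.2.2⟩
  have hbase : cyc x t v db ∈ K := two _ _ _ _ ⟨hx.1, hx.2.1, hx.2.2.1⟩
  have hconj := K.mul_mem (K.mul_mem hk hbase) (K.inv_mem hk)
  rw [conj_cyc _ _ _ _ _ (dist_map _ db)] at hconj
  have et := cyc_apply_of_ne y x s dk (x := t) (Ne.symm hy.2.2.2.2.1) (Ne.symm hx.2.2.2.2.1)
    d.1.symm
  have ev := cyc_apply_of_ne y x s dk (x := v) (Ne.symm hy.2.2.2.2.2.1) (Ne.symm hx.2.2.2.2.2)
    d.2.2.symm
  have ex := cyc_apply_snd y x s dk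
  convert hconj using 2 <;> simp [et, ev, ex]

/-- Commutators commute when all four pairs of entries do. -/
lemma commute_commutator {a b c d : H} (ac : Commute a c) (ad : Commute a d) (bc : Commute b c)
    (bd : Commute b d) : Commute ⁅a, b⁆ ⁅c, d⁆ := by
  have k : ∀ z, Commute a z → Commute b z → Commute ⁅a, b⁆ z := fun z h1 h2 => by
    rw [commutatorElement_def]
    exact ((h1.mul_left h2).mul_left h1.inv_left).mul_left h2.inv_left
  have l1 := k _ ac bc
  have l2 := k _ ad bd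
  generalize ⁅a, b⁆ = z at l1 l2 ⊢
  rw [commutatorElement_def]
  exact ((l1.mul_right l2).mul_right l1.inv_right).mul_right l2.inv_right

/-- Meets of two pairs sharing orthogonal members are orthogonal: this is where the colours are
used. -/
theorem Meet.orth (hn : 8 ≤ n) {e r g f r' h : Alt n →* H} (hg : Meet e r g) (hh : Meet f r' h)
    (hrr : Comm r r') (hef : Sep e f) (her : Sep e r') (hrf : Sep r f) : Comm g h := by
  -- a colour shared by the two three-cycles is given to the orthogonal members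
  have small : ∀ (p q u : Fin n) (dx : Dist p q u) (s t v : Fin n) (dy : Dist s t v),
      s ≠ p ∧ s ≠ q ∧ s ≠ u → t ≠ p ∧ t ≠ q ∧ t ≠ u → v ≠ p ∧ v ≠ q →
      Commute (g (cyc p q u dx)) (h (cyc s t v dy)) := by
    intro p q u dx s t v dy hs ht hv
    obtain ⟨w, hw, hwu, hwv⟩ : ∃ w, (w ∉ [p, q, s, t]) ∧ w ≠ u ∧ w ≠ v := by
      obtain ⟨w, hw⟩ := exists_fresh [p, q, s, t, u, v]
        (by simp only [List.length_cons, List.length_nil]; omega)
      simp only [List.mem_cons, List.not_mem_nil, or_false, not_or] at hw ⊢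
      exact ⟨w, ⟨hw.1, hw.2.1, hw.2.2.1, hw.2.2.2.1⟩, hw.2.2.2.2.1, hw.2.2.2.2.2⟩
    -- the spare colours for the two orthogonal members
    obtain ⟨w₁, hw₁, h₁u⟩ : ∃ w₁, (w₁ ∉ [p, q, s, t]) ∧ w₁ ≠ u ∧ (w₁ = v ∨ w₁ = w ∧ u = v) := by
      by_cases huv : u = v
      · exact ⟨w, hw, hwu, Or.inr ⟨rfl, huv⟩⟩
      · refine ⟨v, ?_, Ne.symm huv, Or.inl rfl⟩
        simp only [List.mem_cons, List.not_mem_nil, or_false, not_or]
        exact ⟨hv.1, hv.2, dy.2.2.symm, dy.2.1.symm⟩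
    obtain ⟨w₂, hw₂, h₂v⟩ : ∃ w₂, (w₂ ∉ [p, q, s, t]) ∧ w₂ ≠ v ∧ (w₂ = u ∨ w₂ = w ∧ u = v) := by
      by_cases huv : u = v
      · exact ⟨w, hw, hwv, Or.inr ⟨rfl, huv⟩⟩
      · refine ⟨u, ?_, huv, Or.inl rfl⟩
        simp only [List.mem_cons, List.not_mem_nil, or_false, not_or]
        exact ⟨dx.2.2.symm, dx.2.1.symm, Ne.symm hs.2.2, Ne.symm ht.2.2⟩
    obtain ⟨a, ha⟩ := exists_fresh [p, q, u, s, t, v, w₁]
      (by simp only [List.length_cons, List.length_nil]; omega)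
    obtain ⟨b, hb, hba⟩ : ∃ b, b ∉ [p, q, u, s, t, v, w₁] ∧ b ≠ a := by
      rcases h₁u.2 with e | ⟨e, e'⟩
      · obtain ⟨b, hb⟩ := exists_fresh [p, q, u, s, t, v, a]
          (by simp only [List.length_cons, List.length_nil]; omega)
        simp only [List.mem_cons, List.not_mem_nil, or_false, not_or] at hb ⊢
        exact ⟨b, ⟨hb.1, hb.2.1, hb.2.2.1, hb.2.2.2.1, hb.2.2.2.2.1, hb.2.2.2.2.2.1,
          e ▸ hb.2.2.2.2.2.1⟩, hb.2.2.2.2.2.2⟩
      · obtain ⟨b, hb⟩ := exists_fresh [p, q, u, s, t, w₁, a]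
          (by simp only [List.length_cons, List.length_nil]; omega)
        simp only [List.mem_cons, List.not_mem_nil, or_false, not_or] at hb ⊢
        exact ⟨b, ⟨hb.1, hb.2.1, hb.2.2.1, hb.2.2.2.1, hb.2.2.2.2.1, e' ▸ hb.2.2.1,
          hb.2.2.2.2.2.1⟩, hb.2.2.2.2.2.2⟩
    have hw₂' : w₂ = u ∨ w₂ = w₁ := by
      rcases h₂v.2 with e | ⟨e, e'⟩
      · exact Or.inl e
      · refine Or.inr ?_
        rcases h₁u.2 with e'' | ⟨e'', -⟩
        · exact absurd (e''.trans e'.symm) h₁u.1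
        · exact e.trans e''.symm
    simp only [List.mem_cons, List.not_mem_nil, or_false, not_or] at hw₁ hw₂ ha hb
    obtain ⟨hpq, hqu, hpu⟩ := dx
    obtain ⟨hst, htv, hsv⟩ := dy
    obtain ⟨w1p, w1q, w1s, w1t⟩ := hw₁
    obtain ⟨w2p, w2q, w2s, w2t⟩ := hw₂
    obtain ⟨ap, aq, au, as', at', av, aw⟩ := ha
    obtain ⟨bp, bq, bu, bs, bt, bv, bw⟩ := hb
    have aw₂ : a ≠ w₂ := by rcases hw₂' with e | e <;> rw [e] <;> assumption
    have bw₂ : b ≠ w₂ := by rcases hw₂' with e | e <;> rw [e] <;> assumption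
    have dx1 : Dist q a p := ⟨Ne.symm aq, ap, hpq.symm⟩
    have dx2 : Dist p u w₁ := ⟨hpu, h₁u.1.symm, (Ne.symm w1p)⟩
    have dy1 : Dist t b s := ⟨Ne.symm bt, bs, hst.symm⟩
    have dy2 : Dist s v w₂ := ⟨hsv, h₂v.1.symm, (Ne.symm w2s)⟩
    rw [← commutator_cyc dx1 dx2 ⟨hpq, hqu, hpu⟩ (Ne.symm w1q) au aw, ← hg,
      ← commutator_cyc dy1 dy2 ⟨hst, htv, hsv⟩ (Ne.symm w2t) bv bw₂, ← hh]
    refine commute_commutator (hef _ _ ?_) (her _ _ ?_) (hrf _ _ ?_) (hrr _ _)
    · exact apart_cyc _ _ ⟨ht.2.1.symm, Ne.symm bq, hs.2.1.symm⟩ ⟨at', hba.symm, as'⟩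
        ⟨ht.1.symm, Ne.symm bp, hs.1.symm⟩
    · exact apart_cyc _ _ ⟨hs.2.1.symm, hv.2.symm, (Ne.symm w2q)⟩ ⟨as', av, aw₂⟩
        ⟨hs.1.symm, hv.1.symm, (Ne.symm w2p)⟩
    · exact apart_cyc _ _ ⟨ht.1.symm, Ne.symm bp, hs.1.symm⟩ ⟨ht.2.2.symm, Ne.symm bu, hs.2.2.symm⟩
        ⟨w1t, Ne.symm bw, w1s⟩
  intro x y
  -- every image of a three-cycle commutes with everything
  have one : ∀ (p q u : Fin n) (dx : Dist p q u), g (cyc p q u dx) ∈
      Subgroup.centralizer (Set.range h) := by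
    intro p q u dx
    rw [Subgroup.mem_centralizer_iff]
    rintro _ ⟨y, rfl⟩
    let K : Subgroup (Alt n) := (Subgroup.centralizer {g (cyc p q u dx)}).comap h
    have memK : ∀ y, y ∈ K ↔ Commute (g (cyc p q u dx)) (h y) := by
      intro y
      simp only [K, Subgroup.mem_comap, Subgroup.mem_centralizer_singleton_iff]
      exact ⟨fun e => e.symm, fun e => e.symm⟩
    have top : K = ⊤ := by
      refine eq_top_of_upToOne hn K p q u fun s t v d h1 h2 => (memK _).2 ?_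
      have d₁ : Dist q u p := ⟨dx.2.1, dx.2.2.symm, dx.1.symm⟩
      have d₂ : Dist u p q := ⟨dx.2.2.symm, dx.1, dx.2.1.symm⟩
      by_cases hv : v = p
      · subst hv
        rw [cyc_rotate v q u dx d₁]
        exact small q u v d₁ s t v d ⟨h1.2.1, h1.2.2, h1.1⟩ ⟨h2.2.1, h2.2.2, h2.1⟩
          ⟨dx.1, dx.2.2⟩
      by_cases hv' : v = q
      · subst hv'
        rw [cyc_rotate p v u dx d₁, cyc_rotate v u p d₁ d₂]
        exact small u p v d₂ s t v d ⟨h1.2.2, h1.1, h1.2.1⟩ ⟨h2.2.2, h2.1, h2.2.1⟩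
          ⟨dx.2.1, dx.1.symm⟩
      exact small p q u dx s t v d h1 h2 ⟨hv, hv'⟩
    exact ((memK y).1 (top ▸ Subgroup.mem_top _)).eq.symm
  have hx : (Subgroup.centralizer (Set.range h)).comap g = ⊤ := eq_top_of_cyc _ one
  have hx' : g x ∈ Subgroup.centralizer (Set.range h) :=
    (Subgroup.mem_comap).1 (hx ▸ Subgroup.mem_top x)
  exact ((Subgroup.mem_centralizer_iff.1 hx') _ ⟨y, rfl⟩).symm

end Vale.Agent.P196.Full.Calculus
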