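import Vale.Agent.P196.Full.Calculus.Cell

/-!
# P196: partitions as homomorphisms, compatibility and refinement

A partition of the unit `u : Alt n →* H` with blocks indexed by `I` is a homomorphism
`(I → Alt n) →* H` that restricts to `u` on constants.
-/

namespace Vale.Agent.P196.Full.Calculus

open scoped commutatorElement

variable {n : ℕ} {H H' : Type*} [Group H] [Group H'] {I J K : Type*}

/-- A partition of the unit `u`. -/
structure Part (u : Alt n →* H) (I : Type*) where
  /-- The homomorphism. -/
  hom : (I → Alt n) →* H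
  hom_const : ∀ a, hom (fun _ => a) = u a

namespace Part

variable {u : Alt n →* H}

/-- A block. -/
def atom [DecidableEq I] (P : Part u I) (i : I) : Alt n →* H :=
  P.hom.comp (MonoidHom.mulSingle (fun _ : I => Alt n) i)

lemma atom_apply [DecidableEq I] (P : Part u I) (i : I) (a : Alt n) :
    P.atom i a = P.hom (Pi.mulSingle i a) := rfl

/-- Merging blocks along a map. -/
def merge (P : Part u I) (f : I → J) : Part u J where
  hom := P.hom.comp (MonoidHom.mk' (fun y => y ∘ f) fun _ _ => rfl)
  hom_const a := P.hom_const a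

lemma merge_apply (P : Part u I) (f : I → J) (y : J → Alt n) :
    (P.merge f).hom y = P.hom (y ∘ f) := rfl

/-- A joint partition. -/
def IsJoint (P : Part u I) (Q : Part u J) (R : Part u (I × J)) : Prop :=
  (R.merge Prod.fst).hom = P.hom ∧ (R.merge Prod.snd).hom = Q.hom

/-- Two partitions have a common refinement. -/
def Compat (P : Part u I) (Q : Part u J) : Prop := ∃ R : Part u (I × J), IsJoint P Q R

/-- `P` refines `Q` along `f`. -/
def Refines (P : Part u I) (f : I → J) (Q : Part u J) : Prop := (P.merge f).hom = Q.hom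

lemma Refines.trans {P : Part u I} {Q : Part u J} {R : Part u K} {f : I → J} {g : J → K}
    (h : Refines P f Q) (h' : Refines Q g R) : Refines P (g ∘ f) R := by
  refine MonoidHom.ext fun y => ?_
  rw [← DFunLike.congr_fun h' y, merge_apply, merge_apply, ← DFunLike.congr_fun h (y ∘ g)]
  rfl

lemma Compat.symm {P : Part u I} {Q : Part u J} (h : Compat P Q) : Compat Q P := by
  obtain ⟨R, h1, h2⟩ := h
  exact ⟨R.merge Prod.swap, h2, h1⟩

lemma Compat.of_refines {P : Part u I} {Q : Part u J} {f : I → J} (h : Refines P f Q) :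
    Compat P Q :=
  ⟨P.merge fun i => (i, f i), rfl, h⟩

lemma Compat.self (P : Part u I) : Compat P P := Compat.of_refines (f := id) rfl

lemma Compat.of_common {P : Part u I} {Q : Part u J} {R : Part u K} {f : K → I} {g : K → J}
    (hP : Refines R f P) (hQ : Refines R g Q) : Compat P Q :=
  ⟨R.merge fun k => (f k, g k), hP, hQ⟩

/-- Coarsenings of compatible partitions are compatible. -/
lemma Compat.merge {P : Part u I} {Q : Part u J} (h : Compat P Q) {I' J' : Type*} (f : I → I')
    (g : J → J') : Compat (P.merge f) (Q.merge g) := by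
  obtain ⟨R, h1, h2⟩ := h
  refine ⟨R.merge fun z => (f z.1, g z.2), MonoidHom.ext fun y => ?_, MonoidHom.ext fun y => ?_⟩
  · exact DFunLike.congr_fun h1 (y ∘ f)
  · exact DFunLike.congr_fun h2 (y ∘ g)

/-- What refines two compatible things is compatible. -/
lemma Compat.of_refines_left {P : Part u I} {Q : Part u J} {P' : Part u K} {f : I → K}
    (h : Compat P Q) (hP : Refines P f P') : Compat P' Q := by
  obtain ⟨R, h1, h2⟩ := h.merge f id
  exact ⟨R, h1.trans hP, h2.trans rfl⟩

/-- The image under a homomorphism of groups. -/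
def map (σ : H →* H') (P : Part u I) : Part (σ.comp u) I :=
  ⟨σ.comp P.hom, fun a => by simp [P.hom_const]⟩

lemma Compat.map (σ : H →* H') {P : Part u I} {Q : Part u J} (h : Compat P Q) :
    Compat (P.map σ) (Q.map σ) := by
  obtain ⟨R, h1, h2⟩ := h
  exact ⟨R.map σ, congrArg σ.comp h1, congrArg σ.comp h2⟩

section Atoms

variable [DecidableEq I] [DecidableEq J] [DecidableEq K]

lemma comm_atom (P : Part u I) {i i' : I} (h : i ≠ i') : Comm (P.atom i) (P.atom i') :=
  fun a b => (Pi.mulSingle_commute (f := fun _ : I => Alt n) h a b).map P.hom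

lemma meet_atom_unit (P : Part u I) (i : I) : Meet (P.atom i) u (P.atom i) := by
  intro a b
  rw [← P.hom_const, atom_apply, atom_apply, ← map_commutatorElement]
  congr 1
  funext k
  by_cases hk : k = i
  · subst hk; simp [commutatorElement_def]
  · simp [commutatorElement_def, Pi.mulSingle_eq_of_ne hk]

/-- Commuting with the values at the blocks is commuting with the value. -/
lemma commute_pi [Finite I] (F : (I → Alt n) →* H) (z : H) (y : I → Alt n)
    (h : ∀ i, Commute z (F (Pi.mulSingle i (y i)))) : Commute z (F y) := by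
  have : y ∈ (Subgroup.centralizer {z}).comap F := Subgroup.pi_mem_of_mulSingle_mem y fun i => by
    rw [Subgroup.mem_comap, Subgroup.mem_centralizer_singleton_iff]
    exact (h i).eq.symm
  rw [Subgroup.mem_comap, Subgroup.mem_centralizer_singleton_iff] at this
  exact this.symm

lemma hom_ext [Finite I] {P Q : Part u I} (h : ∀ i, P.atom i = Q.atom i) : P.hom = Q.hom :=
  MonoidHom.pi_ext fun i a => DFunLike.congr_fun (h i) a

lemma IsJoint.meet {P : Part u I} {Q : Part u J} {R : Part u (I × J)} (h : IsJoint P Q R)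
    (i : I) (j : J) : Meet (P.atom i) (Q.atom j) (R.atom (i, j)) := by
  intro a b
  rw [atom_apply, atom_apply, atom_apply, ← h.1, ← h.2, merge_apply, merge_apply,
    ← map_commutatorElement]
  congr 1
  funext z
  obtain ⟨i', j'⟩ := z
  by_cases hi : i' = i
  · subst hi
    by_cases hj : j' = j
    · subst hj; simp [commutatorElement_def]
    · simp [commutatorElement_def, Prod.ext_iff, hj]
  · simp [commutatorElement_def, Prod.ext_iff, hi]

lemma Compat.exists_meet {P : Part u I} {Q : Part u J} (h : Compat P Q) (i : I) (j : J) :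
    ∃ g, Meet (P.atom i) (Q.atom j) g :=
  let ⟨R, hR⟩ := h
  ⟨R.atom (i, j), hR.meet i j⟩

/-- Meets of distinct pairs of blocks commute. -/
lemma comm_meets (hn : 8 ≤ n) {P : Part u I} {Q : Part u J}
    (hex : ∀ i j, ∃ g, Meet (P.atom i) (Q.atom j) g) {i i' : I} {j j' : J} (hne : (i, j) ≠ (i', j'))
    {g g' : Alt n →* H} (hg : Meet (P.atom i) (Q.atom j) g)
    (hg' : Meet (P.atom i') (Q.atom j') g') : Comm g g' := by
  have sep : ∀ i j, Sep (P.atom i) (Q.atom j) := fun i j => (hex i j).choose_spec.sep
  have sepP : ∀ i i', Sep (P.atom i) (P.atom i') := fun i i' => by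
    by_cases h : i = i'
    · subst h; exact sep_self _
    · exact (P.comm_atom h).sep
  have sepQ : ∀ j j', Sep (Q.atom j) (Q.atom j') := fun j j' => by
    by_cases h : j = j'
    · subst h; exact sep_self _
    · exact (Q.comm_atom h).sep
  by_cases hj : j = j'
  · have hi : i ≠ i' := fun e => hne (by rw [e, hj])
    exact Meet.orth hn hg.symm hg'.symm (P.comm_atom hi) (sepQ j j') (sep i' j).symm (sep i j')
  · exact Meet.orth hn hg hg' (Q.comm_atom hj) (sepP i i') (sep i j') (sep i' j).symm

/-- A block against several blocks of a partition. -/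
lemma meet_hom [Finite I] [Finite J] (hn : 8 ≤ n) (P : Part u I) (Q : Part u J)
    (Θ : (I × J → Alt n) →* H)
    (hΘ : ∀ i j, Meet (P.atom i) (Q.atom j) (Θ.comp (MonoidHom.mulSingle (fun _ => Alt n) (i, j))))
    (i : I) (a : Alt n) (b : Alt n) (s : Finset J) :
    ⁅P.atom i a, Q.hom (fun j => if j ∈ s then b else 1)⁆ =
      Θ (fun z => if z.1 = i ∧ z.2 ∈ s then ⁅a, b⁆ else 1) := by
  induction s using Finset.induction_on with
  | empty =>
    simp only [Finset.notMem_empty, if_false, and_false]
    rw [show (fun _ : J => (1 : Alt n)) = 1 from rfl, show (fun _ : I × J => (1 : Alt n)) = 1 from rfl,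
      map_one, map_one, commutatorElement_one_right]
  | @insert j₀ s hj₀ ih =>
    have e1 : (fun j => if j ∈ insert j₀ s then b else 1) =
        Pi.mulSingle j₀ b * fun j => if j ∈ s then b else (1 : Alt n) := by
      funext j
      by_cases hj : j = j₀
      · subst hj; simp [hj₀]
      · simp [hj]
    have e2 : (fun z : I × J => if z.1 = i ∧ z.2 ∈ insert j₀ s then ⁅a, b⁆ else 1) =
        Pi.mulSingle (i, j₀) ⁅a, b⁆ *
          fun z : I × J => if z.1 = i ∧ z.2 ∈ s then ⁅a, b⁆ else (1 : Alt n) := by
      funext z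
      obtain ⟨i', j'⟩ := z
      by_cases hj : j' = j₀
      · subst hj
        by_cases hi : i' = i <;> simp [hj₀, hi, Prod.ext_iff]
      · simp [hj, Prod.ext_iff]
    have hc : Commute (Q.atom j₀ b)
        (Θ fun z : I × J => if z.1 = i ∧ z.2 ∈ s then ⁅a, b⁆ else (1 : Alt n)) := by
      refine commute_pi Θ _ _ fun z => ?_
      by_cases hz : z.1 = i ∧ z.2 ∈ s
      · obtain ⟨i', j⟩ := z
        obtain ⟨rfl, hj⟩ := hz
        have hne : j ≠ j₀ := fun e => hj₀ (e ▸ hj)
        rw [if_pos ⟨rfl, hj⟩]
        exact (Meet.orth hn (hΘ i' j) (Meet.self (Q.atom j₀)) (Q.comm_atom hne) (hΘ i' j₀).sep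
          (hΘ i' j₀).sep (Q.comm_atom hne).sep ⁅a, b⁆ b).symm
      · simp [hz]
    rw [← ih] at hc
    rw [e1, e2, map_mul, map_mul, ← ih, ← atom_apply]
    show _ = (Θ.comp (MonoidHom.mulSingle (fun _ => Alt n) (i, j₀))) ⁅a, b⁆ * _
    rw [← hΘ, commutatorElement_def, commutatorElement_def, commutatorElement_def]
    rw [commutatorElement_def] at hc
    calc P.atom i a * (Q.atom j₀ b * Q.hom fun j => if j ∈ s then b else 1) * (P.atom i a)⁻¹ *
          (Q.atom j₀ b * Q.hom fun j => if j ∈ s then b else 1)⁻¹
        = P.atom i a * Q.atom j₀ b * (P.atom i a)⁻¹ * ((P.atom i a *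
            (Q.hom fun j => if j ∈ s then b else 1) * (P.atom i a)⁻¹ *
            (Q.hom fun j => if j ∈ s then b else 1)⁻¹) * (Q.atom j₀ b)⁻¹) := by group
      _ = P.atom i a * Q.atom j₀ b * (P.atom i a)⁻¹ * ((Q.atom j₀ b)⁻¹ * (P.atom i a *
            (Q.hom fun j => if j ∈ s then b else 1) * (P.atom i a)⁻¹ *
            (Q.hom fun j => if j ∈ s then b else 1)⁻¹)) := by rw [hc.inv_left.eq.symm]
      _ = _ := by group

/-- A homomorphism with the right meets restricts to the first partition. -/
lemma comp_fst [Finite I] [Finite J] (hn : 8 ≤ n) (P : Part u I) (Q : Part u J)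
    (Θ : (I × J → Alt n) →* H)
    (hΘ : ∀ i j, Meet (P.atom i) (Q.atom j) (Θ.comp (MonoidHom.mulSingle (fun _ => Alt n) (i, j)))) :
    ∀ x : I → Alt n, Θ (x ∘ Prod.fst) = P.hom x := by
  have := Fintype.ofFinite J
  intro x
  let F : (I → Alt n) →* H := Θ.comp (MonoidHom.mk' (fun y => y ∘ Prod.fst) fun _ _ => rfl)
  have : F = P.hom := by
    refine MonoidHom.pi_ext fun i c => ?_
    revert c
    refine DFunLike.congr_fun (hom_ext_commutator (f := F.comp (MonoidHom.mulSingle (fun _ : I => Alt n) i)) (g := P.atom i) (by omega) fun a b => ?_)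
    show F (Pi.mulSingle i ⁅a, b⁆) = P.atom i ⁅a, b⁆
    rw [← P.meet_atom_unit i a b, ← Q.hom_const]
    have h := meet_hom hn P Q Θ hΘ i a b Finset.univ
    simp only [Finset.mem_univ, if_true, and_true] at h
    rw [h]
    show Θ _ = Θ _
    congr 1
    funext z
    by_cases hz : z.1 = i
    · simp [hz]
    · simp [hz]
  exact DFunLike.congr_fun this x

/-- Partitions are compatible exactly when all pairs of blocks have meets. -/
theorem compat_of_meets [Finite I] [Finite J] (hn : 8 ≤ n) {P : Part u I} {Q : Part u J}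
    (hex : ∀ i j, ∃ g, Meet (P.atom i) (Q.atom j) g) : Compat P Q := by
  classical
  have := Fintype.ofFinite I
  have := Fintype.ofFinite J
  choose g hg using hex
  have hcomm : Pairwise fun z w : I × J => ∀ a b, Commute (g z.1 z.2 a) (g w.1 w.2 b) :=
    fun z w hzw => comm_meets hn (fun i j => ⟨_, hg i j⟩) hzw (hg _ _) (hg _ _)
  let Θ : (I × J → Alt n) →* H := MonoidHom.noncommPiCoprod (fun z => g z.1 z.2) hcomm
  have hatom : ∀ z : I × J,
      Θ.comp (MonoidHom.mulSingle (fun _ : I × J => Alt n) z) = g z.1 z.2 :=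
    fun z => MonoidHom.ext fun a => MonoidHom.noncommPiCoprod_mulSingle _ (hcomm := hcomm) z a
  have hfst := comp_fst hn P Q Θ fun i j => by rw [hatom]; exact hg i j
  let σ : (J × I → Alt n) →* (I × J → Alt n) :=
    MonoidHom.mk' (fun y => y ∘ Prod.swap) fun _ _ => rfl
  have hσ : ∀ i j, (Θ.comp σ).comp (MonoidHom.mulSingle (fun _ : J × I => Alt n) (j, i)) =
      Θ.comp (MonoidHom.mulSingle (fun _ : I × J => Alt n) (i, j)) := by
    intro i j
    refine MonoidHom.ext fun a => congrArg Θ (funext fun z => ?_)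
    obtain ⟨i', j'⟩ := z
    simp [σ, Pi.mulSingle_apply, Prod.ext_iff, and_comm]
  have hsnd := comp_fst hn Q P (Θ.comp σ) fun j i => by
    rw [hσ, hatom]; exact (hg i j).symm
  refine ⟨⟨Θ, fun a => ?_⟩, MonoidHom.ext hfst, MonoidHom.ext fun y => ?_⟩
  · rw [← P.hom_const]; exact hfst (fun _ => a)
  · exact hsnd y

theorem compat_iff_meets [Finite I] [Finite J] (hn : 8 ≤ n) {P : Part u I} {Q : Part u J} :
    Compat P Q ↔ ∀ i j, ∃ g, Meet (P.atom i) (Q.atom j) g :=
  ⟨fun h i j => h.exists_meet i j, compat_of_meets hn⟩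

/-- A common refinement is unique. -/
theorem IsJoint.unique [Finite I] [Finite J] (hn : 5 ≤ n) {P : Part u I} {Q : Part u J}
    {R R' : Part u (I × J)} (h : IsJoint P Q R) (h' : IsJoint P Q R') : R.hom = R'.hom :=
  hom_ext fun z => Meet.unique hn (h.meet z.1 z.2) (h'.meet z.1 z.2)

/-- Orthogonality off the graph of `f` gives refinement along `f`. -/
theorem refines_of_orth [Finite I] [Finite J] (hn : 8 ≤ n) {P : Part u I} {Q : Part u J}
    (f : I → J) (h : ∀ i j, j ≠ f i → Comm (P.atom i) (Q.atom j)) : Refines P f Q := by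
  classical
  have := Fintype.ofFinite J
  -- a block sees only its own target
  have own : ∀ i, Meet (P.atom i) (Q.atom (f i)) (P.atom i) := by
    intro i a b
    rw [← P.meet_atom_unit i a b, ← Q.hom_const]
    have e : (fun _ : J => b) = Pi.mulSingle (f i) b * fun j => if j = f i then 1 else b := by
      funext j; by_cases hj : j = f i <;> simp [hj]
    have hc : Commute (P.atom i a) (Q.hom fun j => if j = f i then 1 else b) := by
      refine commute_pi _ _ _ fun j => ?_
      by_cases hj : j = f i
      · simp [hj]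
      · rw [if_neg hj]; exact h i j hj a b
    rw [e, map_mul, ← atom_apply, commutatorElement_def, commutatorElement_def]
    have := hc.inv_left.eq
    calc P.atom i a * Q.atom (f i) b * (P.atom i a)⁻¹ * (Q.atom (f i) b)⁻¹
        = P.atom i a * Q.atom (f i) b * ((P.atom i a)⁻¹ *
            (Q.hom fun j => if j = f i then 1 else b)) *
            (Q.hom fun j => if j = f i then 1 else b)⁻¹ * (Q.atom (f i) b)⁻¹ := by group
      _ = _ := by rw [this]; group
  have hex : ∀ i j, ∃ g, Meet (P.atom i) (Q.atom j) g := fun i j => by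
    by_cases hj : j = f i
    · exact hj ▸ ⟨_, own i⟩
    · exact ⟨1, Meet.of_comm (h i j hj)⟩
  obtain ⟨R, hR⟩ := compat_of_meets hn hex
  have key : R.hom = (P.merge fun i => (i, f i)).hom := hom_ext fun z => by
    obtain ⟨i, j⟩ := z
    refine hom_ext_commutator (by omega) fun a b => ?_
    rw [← hR.meet i j a b, atom_apply (P.merge _), merge_apply]
    by_cases hj : j = f i
    · subst hj
      rw [own i a b]
      refine congrArg P.hom (funext fun i' => ?_)
      by_cases hi : i' = i <;>
        simp [hi, Prod.ext_iff, commutatorElement_def]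
    · rw [commutatorElement_eq_one_iff_commute.2 (h i j hj a b)]
      refine (?_ : P.hom _ = 1).symm
      have : (Pi.mulSingle (M := fun _ : I × J => Alt n) (i, j) ⁅a, b⁆ ∘ fun i => (i, f i)) = 1 := by
        funext i'
        simp only [Function.comp_apply, Pi.mulSingle_apply, Prod.ext_iff, Pi.one_apply]
        rw [if_neg]
        rintro ⟨rfl, e⟩; exact hj e.symm
      rw [this, map_one]
  refine MonoidHom.ext fun y => ?_
  rw [← DFunLike.congr_fun hR.2 y, merge_apply, merge_apply, key]
  rfl

/-- Antisymmetry: two partitions orthogonal off the diagonal are equal. -/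
theorem eq_of_orth [Finite I] (hn : 8 ≤ n) {P Q : Part u I}
    (h : ∀ i j, j ≠ i → Comm (P.atom i) (Q.atom j)) : P.hom = Q.hom :=
  MonoidHom.ext fun y => DFunLike.congr_fun (refines_of_orth hn id h) y

end Atoms

end Part

end Vale.Agent.P196.Full.Calculus
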