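import Vale.Agent.P196.Full.Calculus.Meet
import Vale.Agent.P196.Full.Calculus.Glue

/-!
# P196: the lifts of three-cycles in the meet of two coefficients

For two coefficients `e`, `f` that act on their commutators as the colours do, the commutator of
two three-cycles meeting in one colour depends only on the product. These elements satisfy the
rules of lifts of three-cycles up to their cubes; the cubes are all equal and commute with whatever
commutes with `e` and `f` away from three colours.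
-/

namespace Vale.Agent.P196.Full.Calculus

open Equiv Equiv.Perm
open scoped commutatorElement

variable {n : ℕ} {H : Type*} [Group H]

/-- Disjointly coloured three-cycles commute. -/
def CSep (e f : Alt n →* H) : Prop :=
  ∀ p q u (h : Dist p q u) s t v (h' : Dist s t v), s ∉ [p, q, u] → t ∉ [p, q, u] → v ∉ [p, q, u] →
    Commute (e (cyc p q u h)) (f (cyc s t v h'))

lemma cyc_mul_spare {p q r s : Fin n} (h : Dist p q r) (h' : Dist p s r) (h'' : Dist p s q) :
    cyc p q r h * cyc p s q h'' = cyc p s r h' := by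
  refine Subtype.ext ?_
  simp only [Subgroup.coe_mul, cyc_coe]
  obtain ⟨q1, q2, q3⟩ := h
  obtain ⟨q4, q5, q6⟩ := h'
  obtain ⟨q7, q8, q9⟩ := h''
  refine Equiv.ext fun x => ?_
  simp only [Perm.mul_apply, Equiv.swap_apply_def]
  grind

lemma cyc_apply_three (p q u : Fin n) (h : Dist p q u) (x : Fin n) :
    (cyc p q u h : Perm (Fin n)) ((cyc p q u h : Perm (Fin n))
      ((cyc p q u h : Perm (Fin n)) x)) = x := by
  by_cases e₁ : x = p
  · subst e₁; rw [cyc_apply_fst, cyc_apply_snd, cyc_apply_thd]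
  by_cases e₂ : x = q
  · subst e₂; rw [cyc_apply_snd, cyc_apply_thd, cyc_apply_fst]
  by_cases e₃ : x = u
  · subst e₃; rw [cyc_apply_thd, cyc_apply_fst, cyc_apply_snd]
  rw [cyc_apply_of_ne _ _ _ _ e₁ e₂ e₃, cyc_apply_of_ne _ _ _ _ e₁ e₂ e₃,
    cyc_apply_of_ne _ _ _ _ e₁ e₂ e₃]

/-- What is needed of two coefficients: they are separated, and on commutators of three-cycles
each of them acts as the colours do. -/
structure Flank (e f : Alt n →* H) : Prop where
  sep : CSep e f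
  left : ∀ k p q u (h : Dist p q u) s t v (h' : Dist s t v),
    e k * ⁅e (cyc p q u h), f (cyc s t v h')⁆ * (e k)⁻¹ =
      ⁅e (k * cyc p q u h * k⁻¹), f (k * cyc s t v h' * k⁻¹)⁆
  right : ∀ k p q u (h : Dist p q u) s t v (h' : Dist s t v),
    f k * ⁅e (cyc p q u h), f (cyc s t v h')⁆ * (f k)⁻¹ =
      ⁅e (k * cyc p q u h * k⁻¹), f (k * cyc s t v h' * k⁻¹)⁆

/-- The five colours of a commutator of three-cycles meeting in the third. -/
def Five (a b c d e : Fin n) : Prop :=
  Dist a b c ∧ Dist c d e ∧ a ≠ d ∧ a ≠ e ∧ b ≠ d ∧ b ≠ e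

lemma Five.map {a b c d e : Fin n} (h : Five a b c d e) (k : Alt n) :
    Five ((k : Perm (Fin n)) a) ((k : Perm (Fin n)) b) ((k : Perm (Fin n)) c)
      ((k : Perm (Fin n)) d) ((k : Perm (Fin n)) e) :=
  ⟨dist_map k h.1, dist_map k h.2.1, fun q => h.2.2.1 ((k : Perm (Fin n)).injective q),
    fun q => h.2.2.2.1 ((k : Perm (Fin n)).injective q),
    fun q => h.2.2.2.2.1 ((k : Perm (Fin n)).injective q),
    fun q => h.2.2.2.2.2 ((k : Perm (Fin n)).injective q)⟩

lemma Five.dist {a b c d e : Fin n} (h : Five a b c d e) : Dist c a d :=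
  ⟨h.1.2.2.symm, h.2.2.1, h.2.1.1⟩

open Classical in
/-- The lift of the three-cycle `c → a → d`. -/
noncomputable def ell (e f : Alt n →* H) (c a d : Fin n) : H :=
  if h : ∃ z : Fin n × Fin n, Five a z.1 c d z.2 then
    ⁅e (cyc a h.choose.1 c h.choose_spec.1), f (cyc c d h.choose.2 h.choose_spec.2.1)⁆
  else 1

lemma exists_five (hn : 5 ≤ n) {a c d : Fin n} (h : Dist c a d) :
    ∃ b e, Five a b c d e := by
  obtain ⟨b, hb⟩ := exists_fresh [c, a, d] (by simp only [List.length_cons, List.length_nil]; omega)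
  obtain ⟨e, he⟩ := exists_fresh [c, a, d, b]
    (by simp only [List.length_cons, List.length_nil]; omega)
  simp only [List.mem_cons, List.not_mem_nil, or_false, not_or] at hb he
  exact ⟨b, e, ⟨Ne.symm hb.2.1, hb.1, h.1.symm⟩, ⟨h.2.2, Ne.symm he.2.2.1, Ne.symm he.1⟩,
    h.2.1, Ne.symm he.2.1, hb.2.2, Ne.symm he.2.2.2⟩

lemma commutator_mul_right {G : Type*} [Group G] (a b c : G) :
    ⁅a, b * c⁆ = ⁅a, b⁆ * (b * ⁅a, c⁆ * b⁻¹) := by
  simp only [commutatorElement_def]; group

lemma commutator_mul_left {G : Type*} [Group G] (a b c : G) :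
    ⁅a * b, c⁆ = a * ⁅b, c⁆ * a⁻¹ * ⁅a, c⁆ := by
  simp only [commutatorElement_def]; group

lemma commutator_inv_right {G : Type*} [Group G] (a b : G) :
    ⁅a, b⁻¹⁆ = b⁻¹ * ⁅a, b⁆⁻¹ * b⁻¹⁻¹ := by
  simp only [commutatorElement_def]; group

lemma commutator_inv_left {G : Type*} [Group G] (a b : G) :
    ⁅a⁻¹, b⁆ = a⁻¹ * ⁅a, b⁆⁻¹ * a⁻¹⁻¹ := by
  simp only [commutatorElement_def]; group

namespace Flank

variable {e f : Alt n →* H}

lemma change_left (hF : Flank e f) {a b b' c d g : Fin n} (h : Five a b c d g)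
    (h' : Five a b' c d g) :
    ⁅e (cyc a b c h.1), f (cyc c d g h.2.1)⁆ = ⁅e (cyc a b' c h'.1), f (cyc c d g h.2.1)⁆ := by
  obtain ⟨h1, h2, h3, h4, h5, h6⟩ := h
  obtain ⟨h1', -, -, -, h5', h6'⟩ := h'
  by_cases e' : b' = b
  · subst e'; rfl
  have hm : Dist a b' b := ⟨h1'.1, e', h1.1⟩
  have h1m : Commute (e (cyc a b' b hm)) (f (cyc c d g h2)) := by
    refine hF.sep _ _ _ hm _ _ _ h2 ?_ ?_ ?_ <;>
      simp only [List.mem_cons, List.not_mem_nil, or_false, not_or]
    exacts [⟨h1.2.2.symm, h1'.2.1.symm, h1.2.1.symm⟩, ⟨h3.symm, h5'.symm, h5.symm⟩,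
      ⟨h4.symm, h6'.symm, h6.symm⟩]
  rw [← cyc_mul_spare h1 h1' hm, map_mul]
  have := h1m.eq
  simp only [commutatorElement_def, mul_inv_rev]
  calc e (cyc a b c h1) * f (cyc c d g h2) * (e (cyc a b c h1))⁻¹ * (f (cyc c d g h2))⁻¹
      = e (cyc a b c h1) * (f (cyc c d g h2) * e (cyc a b' b hm)) * (e (cyc a b' b hm))⁻¹ *
          (e (cyc a b c h1))⁻¹ * (f (cyc c d g h2))⁻¹ := by group
    _ = _ := by rw [← this]; group

lemma change_right (hF : Flank e f) {a b c d g g' : Fin n} (h : Five a b c d g)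
    (h' : Five a b c d g') :
    ⁅e (cyc a b c h.1), f (cyc c d g h.2.1)⁆ = ⁅e (cyc a b c h.1), f (cyc c d g' h'.2.1)⁆ := by
  obtain ⟨h1, h2, h3, h4, h5, h6⟩ := h
  obtain ⟨-, h2', -, h4', -, h6'⟩ := h'
  by_cases e' : g' = g
  · subst e'; rfl
  have hm : Dist d g' g := ⟨h2'.2.1, e', h2.2.1⟩
  have h1m : Commute (e (cyc a b c h1)) (f (cyc d g' g hm)) := by
    refine hF.sep _ _ _ h1 _ _ _ hm ?_ ?_ ?_ <;>
      simp only [List.mem_cons, List.not_mem_nil, or_false, not_or]
    exacts [⟨h3.symm, h5.symm, h2.1.symm⟩, ⟨h4'.symm, h6'.symm, h2'.2.2.symm⟩,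
      ⟨h4.symm, h6.symm, h2.2.2.symm⟩]
  have r1 : Dist d g c := ⟨h2.2.1, h2.2.2.symm, h2.1.symm⟩
  have r1' : Dist d g' c := ⟨h2'.2.1, h2'.2.2.symm, h2.1.symm⟩
  have : cyc c d g' h2' = cyc c d g h2 * cyc d g' g hm := by
    rw [cyc_rotate c d g' h2' r1', cyc_rotate c d g h2 r1, cyc_mul_spare r1 r1' hm]
  rw [this, map_mul]
  have := h1m.eq
  simp only [commutatorElement_def, mul_inv_rev]
  symm
  calc e (cyc a b c h1) * (f (cyc c d g h2) * f (cyc d g' g hm)) * (e (cyc a b c h1))⁻¹ *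
          ((f (cyc d g' g hm))⁻¹ * (f (cyc c d g h2))⁻¹)
      = e (cyc a b c h1) * f (cyc c d g h2) * (e (cyc a b c h1))⁻¹ *
          (e (cyc a b c h1) * f (cyc d g' g hm)) * (e (cyc a b c h1))⁻¹ *
          (f (cyc d g' g hm))⁻¹ * (f (cyc c d g h2))⁻¹ := by group
    _ = _ := by rw [this]; group

/-- The commutator depends only on the product. -/
lemma ell_eq (hF : Flank e f) (hn : 8 ≤ n) {a b c d g : Fin n} (h : Five a b c d g) :
    ell e f c a d = ⁅e (cyc a b c h.1), f (cyc c d g h.2.1)⁆ := by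
  have hex : ∃ z : Fin n × Fin n, Five a z.1 c d z.2 := ⟨(b, g), h⟩
  rw [ell, dif_pos hex]
  suffices key : ∀ b₁ g₁ (h₁ : Five a b₁ c d g₁),
      ⁅e (cyc a b₁ c h₁.1), f (cyc c d g₁ h₁.2.1)⁆ = ⁅e (cyc a b c h.1), f (cyc c d g h.2.1)⁆ from
    key _ _ hex.choose_spec
  intro b₁ g₁ h₁
  obtain ⟨w, hw⟩ := exists_fresh [a, c, d, g, g₁]
    (by simp only [List.length_cons, List.length_nil]; omega)
  simp only [List.mem_cons, List.not_mem_nil, or_false, not_or] at hw
  have k : Five a w c d g :=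
    ⟨⟨Ne.symm hw.1, hw.2.1, h.1.2.2⟩, h.2.1, h.2.2.1, h.2.2.2.1, hw.2.2.1, hw.2.2.2.1⟩
  have k₁ : Five a w c d g₁ :=
    ⟨k.1, h₁.2.1, h.2.2.1, h₁.2.2.2.1, hw.2.2.1, hw.2.2.2.2⟩
  have e1 := hF.change_left h₁ k₁
  have e2 := hF.change_right k₁ k
  have e3 := hF.change_left k h
  exact (e1.trans e2).trans e3

lemma ell_conj_left (hF : Flank e f) (hn : 8 ≤ n) (k : Alt n) {c a d : Fin n} (h : Dist c a d) :
    e k * ell e f c a d * (e k)⁻¹ =
      ell e f ((k : Perm (Fin n)) c) ((k : Perm (Fin n)) a) ((k : Perm (Fin n)) d) := by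
  obtain ⟨b, g, h5⟩ := exists_five (by omega) h
  rw [hF.ell_eq hn h5, hF.ell_eq hn (h5.map k), hF.left,
    conj_cyc k _ _ _ h5.1 (dist_map k h5.1), conj_cyc k _ _ _ h5.2.1 (dist_map k h5.2.1)]

lemma ell_conj_right (hF : Flank e f) (hn : 8 ≤ n) (k : Alt n) {c a d : Fin n} (h : Dist c a d) :
    f k * ell e f c a d * (f k)⁻¹ =
      ell e f ((k : Perm (Fin n)) c) ((k : Perm (Fin n)) a) ((k : Perm (Fin n)) d) := by
  obtain ⟨b, g, h5⟩ := exists_five (by omega) h
  rw [hF.ell_eq hn h5, hF.ell_eq hn (h5.map k), hF.right,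
    conj_cyc k _ _ _ h5.1 (dist_map k h5.1), conj_cyc k _ _ _ h5.2.1 (dist_map k h5.2.1)]

/-- A lift acts as its three-cycle. -/
lemma ell_conj (hF : Flank e f) (hn : 8 ≤ n) {a b c : Fin n} (h : Dist a b c) {p q u : Fin n}
    (h' : Dist p q u) : ell e f a b c * ell e f p q u * (ell e f a b c)⁻¹ =
      ell e f ((cyc a b c h : Perm (Fin n)) p) ((cyc a b c h : Perm (Fin n)) q)
        ((cyc a b c h : Perm (Fin n)) u) := by
  obtain ⟨x, y, h5⟩ := exists_five (by omega) h
  have hk : ⁅cyc b x a h5.1, cyc a c y h5.2.1⁆ = cyc a b c h :=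
    commutator_cyc h5.1 h5.2.1 h h5.2.2.2.1 h5.2.2.2.2.1 h5.2.2.2.2.2
  rw [hF.ell_eq hn h5, ← hk]
  simp only [commutatorElement_def]
  generalize cyc b x a h5.1 = X
  generalize cyc a c y h5.2.1 = Y
  have d1 := dist_map Y⁻¹ h'
  have d2 := dist_map X⁻¹ d1
  have d3 := dist_map Y d2
  calc e X * f Y * (e X)⁻¹ * (f Y)⁻¹ * ell e f p q u * (e X * f Y * (e X)⁻¹ * (f Y)⁻¹)⁻¹
      = e X * (f Y * (e X⁻¹ * (f Y⁻¹ * ell e f p q u * (f Y⁻¹)⁻¹) * (e X⁻¹)⁻¹) * (f Y)⁻¹) *
          (e X)⁻¹ := by rw [map_inv, map_inv]; group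
    _ = _ := by
      rw [hF.ell_conj_right hn _ h', hF.ell_conj_left hn _ d1, hF.ell_conj_right hn _ d2,
        hF.ell_conj_left hn _ d3]
      simp only [Subgroup.coe_mul, Subgroup.coe_inv, Perm.mul_apply]

lemma ell_rot (hF : Flank e f) (hn : 8 ≤ n) {a b c : Fin n} (h : Dist a b c) :
    ell e f a b c = ell e f b c a := by
  have := hF.ell_conj hn h h
  rw [cyc_apply_fst, cyc_apply_snd, cyc_apply_thd] at this
  simpa using this

lemma ell_inv (hF : Flank e f) (hn : 8 ≤ n) {c a d : Fin n} (h : Dist c a d) :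
    ell e f c d a = (ell e f c a d)⁻¹ := by
  obtain ⟨b, g, h5⟩ := exists_five (by omega) h
  have h5' : Five b a c d g := ⟨⟨h5.1.1.symm, h5.1.2.2, h5.1.2.1⟩, h5.2.1, h5.2.2.2.2.1,
    h5.2.2.2.2.2, h5.2.2.1, h5.2.2.2.1⟩
  have hd : Dist c b a := ⟨h5.1.2.1.symm, h5.1.1.symm, h5.1.2.2.symm⟩
  have ex : cyc b a c h5'.1 = (cyc a b c h5.1)⁻¹ := by
    rw [cyc_inv a b c h5.1 hd, cyc_rotate c b a hd h5'.1]
  have key : (ell e f c a d)⁻¹ =
      e (cyc a b c h5.1) * ell e f c b d * (e (cyc a b c h5.1))⁻¹ := by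
    rw [hF.ell_eq hn h5, hF.ell_eq hn h5', ex, map_inv]
    simp only [commutatorElement_def]
    group
  have ed := cyc_apply_of_ne a b c h5.1 (x := d) h.2.1.symm h5.2.2.2.2.1.symm h.2.2.symm
  rw [key, hF.ell_conj_left hn _ h5'.dist, cyc_apply_thd, cyc_apply_snd, ed,
    hF.ell_rot hn (⟨h.1.symm, h.2.2, h.2.1⟩ : Dist a c d)]

lemma ell_rel (hF : Flank e f) (hn : 8 ≤ n) {a b c d : Fin n} (h1 : Dist a b d) (h2 : Dist c a d)
    (hbc : b ≠ c) : ell e f a b d * ell e f c a d = ell e f c b d := by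
  obtain ⟨g, hg⟩ := exists_fresh [a, b, c, d]
    (by simp only [List.length_cons, List.length_nil]; omega)
  simp only [List.mem_cons, List.not_mem_nil, or_false, not_or] at hg
  have h5 : Five a b c d g := ⟨⟨h1.1, hbc, h2.1.symm⟩, ⟨h2.2.2, Ne.symm hg.2.2.2,
    Ne.symm hg.2.2.1⟩, h1.2.2, Ne.symm hg.1, h1.2.1, Ne.symm hg.2.1⟩
  have h5' : Five b a c d g := ⟨⟨h1.1.symm, h2.1.symm, hbc⟩, h5.2.1, h1.2.1, Ne.symm hg.2.1,
    h1.2.2, Ne.symm hg.1⟩
  have hd : Dist c b a := ⟨hbc.symm, h1.1.symm, h2.1⟩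
  have sq : cyc a b c h5.1 * cyc a b c h5.1 = cyc b a c h5'.1 := by
    rw [← cyc_rotate c b a hd h5'.1, ← cyc_inv a b c h5.1 hd]
    refine eq_inv_of_mul_eq_one_left (Subtype.ext (Equiv.ext fun x => ?_))
    simp only [Subgroup.coe_mul, Perm.mul_apply]
    exact cyc_apply_three a b c h5.1 x
  have key : ell e f c b d =
      e (cyc a b c h5.1) * ell e f c a d * (e (cyc a b c h5.1))⁻¹ * ell e f c a d := by
    rw [hF.ell_eq hn h5', hF.ell_eq hn h5, ← sq, map_mul]
    simp only [commutatorElement_def]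
    group
  have ed := cyc_apply_of_ne a b c h5.1 (x := d) h1.2.2.symm h1.2.1.symm h2.2.2.symm
  rw [key, hF.ell_conj_left hn _ h2, cyc_apply_thd, cyc_apply_fst, ed]

/-- The meet exists once the cubes of the lifts vanish. -/
theorem exists_meet (hF : Flank e f) (hn : 8 ≤ n)
    (hcube : ∀ a b c, Dist a b c → ell e f a b c * ell e f a b c * ell e f a b c = 1) :
    ∃ μ, Meet e f μ := by
  obtain ⟨μ, hμ⟩ := IsCycles.exists_hom (ℓ := ell e f)
    { rot := fun a b c h => hF.ell_rot hn h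
      inv := fun a b c h => hF.ell_inv hn h
      cube := hcube
      rel := fun a b c d h1 h2 hbc => hF.ell_rel hn h1 h2 hbc
      conj := fun a b c h p q u h' => hF.ell_conj hn h h' }
  have conjμ : ∀ (φ : Alt n →* H),
      (∀ k c a d, Dist c a d → φ k * ell e f c a d * (φ k)⁻¹ =
        ell e f ((k : Perm (Fin n)) c) ((k : Perm (Fin n)) a) ((k : Perm (Fin n)) d)) →
      ∀ k z, φ k * μ z * (φ k)⁻¹ = μ (k * z * k⁻¹) := by
    intro φ hφ k
    have : (MulAut.conj (φ k)).toMonoidHom.comp μ = μ.comp (MulAut.conj k).toMonoidHom := by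
      refine MonoidHom.eq_of_eqOn_dense (s := {g | ∃ a b c h, g = cyc a b c h}) ?_ ?_
      · exact eq_top_of_cyc _ fun a b c h => Subgroup.subset_closure ⟨a, b, c, h, rfl⟩
      · rintro _ ⟨a, b, c, h, rfl⟩
        simp only [MonoidHom.comp_apply, MulEquiv.coe_toMonoidHom, MulAut.conj_apply, hμ,
          conj_cyc k a b c h (dist_map k h)]
        exact hφ k a b c h
    exact fun z => DFunLike.congr_fun this z
  have ce := conjμ e fun k c a d h => hF.ell_conj_left hn k h
  have cf := conjμ f fun k c a d h => hF.ell_conj_right hn k h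
  have small : ∀ p q u (h : Dist p q u) s t v (h' : Dist s t v), s ∉ [p, q, u] → t ∉ [p, q, u] →
      v ≠ p → v ≠ q →
      ⁅e (cyc p q u h), f (cyc s t v h')⁆ = μ ⁅cyc p q u h, cyc s t v h'⁆ := by
    intro p q u h s t v h' hs ht hvp hvq
    by_cases hv : v = u
    · subst hv
      simp only [List.mem_cons, List.not_mem_nil, or_false, not_or] at hs ht
      have r1 : Dist v s t := ⟨h'.2.2.symm, h'.1, h'.2.1.symm⟩
      rw [← cyc_rotate v s t r1 h']
      have h5 : Five p q v s t :=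
        ⟨h, r1, Ne.symm hs.1, Ne.symm ht.1, Ne.symm hs.2.1, Ne.symm ht.2.1⟩
      rw [commutator_cyc h r1 h5.dist (Ne.symm ht.1) (Ne.symm hs.2.1) (Ne.symm ht.2.1), hμ,
        hF.ell_eq hn h5]
    · have hv' : v ∉ [p, q, u] := by
        simp only [List.mem_cons, List.not_mem_nil, or_false, not_or]; exact ⟨hvp, hvq, hv⟩
      have ha : Apart (cyc p q u h) (cyc s t v h') := by
        simp only [List.mem_cons, List.not_mem_nil, or_false, not_or] at hs ht hv'
        exact apart_cyc h h' ⟨Ne.symm hs.1, Ne.symm ht.1, Ne.symm hv'.1⟩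
          ⟨Ne.symm hs.2.1, Ne.symm ht.2.1, Ne.symm hv'.2.1⟩
          ⟨Ne.symm hs.2.2, Ne.symm ht.2.2, Ne.symm hv'.2.2⟩
      rw [commutatorElement_eq_one_iff_commute.2 (hF.sep _ _ _ h _ _ _ h' hs ht hv'),
        commutatorElement_eq_one_iff_commute.2 (Subtype.ext (Perm.Disjoint.commute ha).eq), map_one]
  have right : ∀ p q u (h : Dist p q u) y,
      ⁅e (cyc p q u h), f y⁆ = μ ⁅cyc p q u h, y⁆ := by
    intro p q u h
    let K : Subgroup (Alt n) :=
      { carrier := {y | ⁅e (cyc p q u h), f y⁆ = μ ⁅cyc p q u h, y⁆}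
        one_mem' := by simp
        mul_mem' := fun {y z} hy hz => by
          simp only [Set.mem_ofPred_eq] at hy hz ⊢
          rw [map_mul, commutator_mul_right, hy, hz, cf, ← map_mul, commutator_mul_right]
        inv_mem' := fun {y} hy => by
          simp only [Set.mem_ofPred_eq] at hy ⊢
          rw [map_inv, commutator_inv_right, commutator_inv_right, hy, ← map_inv μ, ← map_inv f,
            cf] }
    have top : K = ⊤ := eq_top_of_upToOne hn K p q u fun s t v d hs ht => by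
      show ⁅e (cyc p q u h), f (cyc s t v d)⁆ = μ ⁅cyc p q u h, cyc s t v d⁆
      have d₁ : Dist q u p := ⟨h.2.1, h.2.2.symm, h.1.symm⟩
      have d₂ : Dist u p q := ⟨h.2.2.symm, h.1, h.2.1.symm⟩
      have hs' : s ∉ [p, q, u] := by simp [hs.1, hs.2.1, hs.2.2]
      have ht' : t ∉ [p, q, u] := by simp [ht.1, ht.2.1, ht.2.2]
      by_cases hv : v = p
      · rw [cyc_rotate p q u h d₁]
        exact small q u p d₁ s t v d (by simp [hs.1, hs.2.1, hs.2.2])
          (by simp [ht.1, ht.2.1, ht.2.2]) (hv ▸ h.1) (hv ▸ h.2.2)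
      by_cases hv' : v = q
      · rw [cyc_rotate p q u h d₁, cyc_rotate q u p d₁ d₂]
        exact small u p q d₂ s t v d (by simp [hs.1, hs.2.1, hs.2.2])
          (by simp [ht.1, ht.2.1, ht.2.2]) (hv' ▸ h.2.1) (hv' ▸ h.1.symm)
      exact small p q u h s t v d hs' ht' hv hv'
    exact fun y => (top ▸ Subgroup.mem_top y : y ∈ K)
  refine ⟨μ, fun x y => ?_⟩
  let K : Subgroup (Alt n) :=
    { carrier := {x | ∀ y, ⁅e x, f y⁆ = μ ⁅x, y⁆}
      one_mem' := fun y => by simp
      mul_mem' := fun {x z} hx hz y => by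
        simp only [Set.mem_ofPred_eq] at hx hz
        rw [map_mul, commutator_mul_left, hx, hz, ce, ← map_mul, commutator_mul_left]
      inv_mem' := fun {x} hx y => by
        simp only [Set.mem_ofPred_eq] at hx
        rw [map_inv, commutator_inv_left, commutator_inv_left, hx, ← map_inv μ, ← map_inv e,
          ce] }
  have top : K = ⊤ := eq_top_of_cyc K fun p q u h y => right p q u h y
  exact (top ▸ Subgroup.mem_top x : x ∈ K) y

/-- The cube of a lift. -/
noncomputable def cube (e f : Alt n →* H) (c a d : Fin n) : H :=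
  ell e f c a d * ell e f c a d * ell e f c a d

lemma cube_move (hF : Flank e f) (hn : 8 ≤ n) {c a d : Fin n} (h : Dist c a d) {p q u : Fin n}
    (h' : Dist p q u) : cube e f c a d =
      cube e f ((cyc p q u h' : Perm (Fin n)) c) ((cyc p q u h' : Perm (Fin n)) a)
        ((cyc p q u h' : Perm (Fin n)) d) := by
  have hc : Commute (cube e f c a d) (ell e f p q u) := by
    have k : ∀ {p q u : Fin n}, Dist p q u → ell e f c a d * ell e f p q u =
        ell e f ((cyc c a d h : Perm (Fin n)) p) ((cyc c a d h : Perm (Fin n)) q)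
          ((cyc c a d h : Perm (Fin n)) u) * ell e f c a d :=
      fun {p q u} h' => mul_inv_eq_iff_eq_mul.1 (hF.ell_conj hn h h')
    have s1 := dist_map (cyc c a d h) h'
    have s2 := dist_map (cyc c a d h) s1
    have := k s2
    rw [cyc_apply_three, cyc_apply_three, cyc_apply_three] at this
    show _ * _ = _ * _
    unfold cube
    have e1 := k h'
    have e2 := k s1
    generalize ell e f c a d = L at this e1 e2 ⊢
    calc L * L * L * ell e f p q u = L * L * (L * ell e f p q u) := by group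
      _ = _ := by
        rw [e1, ← mul_assoc, mul_assoc L L, e2, ← mul_assoc, this]
        group
  have h2 := hF.ell_conj hn h' h
  unfold cube at hc ⊢
  rw [← h2]
  calc _ = ell e f c a d * ell e f c a d * ell e f c a d * ell e f p q u * (ell e f p q u)⁻¹ := by
        group
    _ = _ := by rw [hc.eq]; group

/-- The cubes commute with what commutes with both coefficients away from three colours. -/
lemma cube_commute (hF : Flank e f) (hn : 8 ≤ n) (g : H) (C : List (Fin n)) (hC : C.length ≤ 3)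
    (hge : ∀ a b c (h : Dist a b c), a ∉ C → b ∉ C → c ∉ C → Commute g (e (cyc a b c h)))
    (hgf : ∀ a b c (h : Dist a b c), a ∉ C → b ∉ C → c ∉ C → Commute g (f (cyc a b c h)))
    {c a d : Fin n} (h : Dist c a d) : Commute g (cube e f c a d) := by
  have off : ∀ {c a d}, Dist c a d → c ∉ C → a ∉ C → d ∉ C → Commute g (cube e f c a d) := by
    intro c a d h hc ha hd
    obtain ⟨b, hb⟩ := exists_fresh (C ++ [c, a, d])
      (by simp only [List.length_append, List.length_cons, List.length_nil]; omega)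
    obtain ⟨x, hx⟩ := exists_fresh (C ++ [c, a, d, b])
      (by simp only [List.length_append, List.length_cons, List.length_nil]; omega)
    simp only [List.mem_append, List.mem_cons, List.not_mem_nil, or_false, not_or] at hb hx
    have h5 : Five a b c d x := ⟨⟨Ne.symm hb.2.2.1, hb.2.1, h.1.symm⟩,
      ⟨h.2.2, Ne.symm hx.2.2.2.1, Ne.symm hx.2.1⟩, h.2.1, Ne.symm hx.2.2.1, hb.2.2.2,
      Ne.symm hx.2.2.2.2⟩
    have c1 := hge _ _ _ h5.1 ha hb.1 hc
    have c2 := hgf _ _ _ h5.2.1 hc hd hx.1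
    have : Commute g (ell e f c a d) := by
      rw [hF.ell_eq hn h5, commutatorElement_def]
      exact ((c1.mul_right c2).mul_right c1.inv_right).mul_right c2.inv_right
    exact (this.mul_right this).mul_right this
  have step : ∀ {c a d}, Dist c a d → ∀ w, w ∉ C → w ∉ [c, a, d] →
      cube e f c a d = cube e f w a d := by
    intro c a d h w _ hw
    obtain ⟨w', hw'⟩ := exists_fresh [c, a, d, w]
      (by simp only [List.length_cons, List.length_nil]; omega)
    simp only [List.mem_cons, List.not_mem_nil, or_false, not_or] at hw hw'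
    have hk : Dist c w w' := ⟨Ne.symm hw.1, Ne.symm hw'.2.2.2, Ne.symm hw'.1⟩
    have := hF.cube_move hn h hk
    rwa [cyc_apply_fst, cyc_apply_of_ne c w w' hk (x := a) h.1.symm (Ne.symm hw.2.1)
      (Ne.symm hw'.2.1), cyc_apply_of_ne c w w' hk (x := d) h.2.2.symm (Ne.symm hw.2.2)
      (Ne.symm hw'.2.2.1)] at this
  have rot : ∀ {c a d}, Dist c a d → cube e f c a d = cube e f a d c := by
    intro c a d h; simp only [cube, hF.ell_rot hn h]
  have fresh : ∀ (c a d : Fin n), ∃ w, w ∉ C ∧ w ∉ [c, a, d] := by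
    intro c a d
    obtain ⟨w, hw⟩ := exists_fresh (C ++ [c, a, d])
      (by simp only [List.length_append, List.length_cons, List.length_nil]; omega)
    exact ⟨w, by simpa only [List.mem_append, not_or] using hw⟩
  obtain ⟨w, hwC, hw⟩ := fresh c a d
  have h1 : Dist w a d := by
    simp only [List.mem_cons, List.not_mem_nil, or_false, not_or] at hw
    exact ⟨hw.2.1, h.2.1, hw.2.2⟩
  rw [step h w hwC hw, rot h1]
  obtain ⟨v, hvC, hv⟩ := fresh a d w
  have h2 : Dist v d w := by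
    simp only [List.mem_cons, List.not_mem_nil, or_false, not_or] at hv
    exact ⟨hv.2.1, h1.2.2.symm, hv.2.2⟩
  have h1' : Dist a d w := ⟨h1.2.1, h1.2.2.symm, h1.1.symm⟩
  rw [step h1' v hvC hv, rot h2]
  obtain ⟨u, huC, hu⟩ := fresh d w v
  have h3 : Dist u w v := by
    simp only [List.mem_cons, List.not_mem_nil, or_false, not_or] at hu
    exact ⟨hu.2.1, h2.2.2.symm, hu.2.2⟩
  rw [step ⟨h2.2.1, h2.2.2.symm, h2.1.symm⟩ u huC hu]
  exact off h3 huC hwC hvC

end Flank

end Vale.Agent.P196.Full.Calculus
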