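import Vale.Agent.P196.Full.Calculus.Triple
import Vale.Agent.P196.Full.Calculus.Spare

/-!
# P196: three pairwise compatible partitions, modulo the centre

Pairwise compatible partitions `P`, `Q`, `R` need not have a common refinement, but the obstruction
at each cell is one element (the common cube of the lifts of three-cycles), which commutes with
whatever commutes with the three partitions away from three colours. So in a group with trivial
centre generated by such elements the join of two of them is compatible with the third.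
-/

namespace Vale.Agent.P196.Full.Calculus

open Equiv Equiv.Perm
open scoped commutatorElement

variable {n : ℕ} {H H' : Type*} [Group H] [Group H']

lemma Sep.csep {e f : Alt n →* H} (h : Sep e f) : CSep e f := by
  intro p q u d s t v d' hs ht hv
  simp only [List.mem_cons, List.not_mem_nil, or_false, not_or] at hs ht hv
  exact h _ _ (apart_cyc d d' ⟨Ne.symm hs.1, Ne.symm ht.1, Ne.symm hv.1⟩
    ⟨Ne.symm hs.2.1, Ne.symm ht.2.1, Ne.symm hv.2.1⟩
    ⟨Ne.symm hs.2.2, Ne.symm ht.2.2, Ne.symm hv.2.2⟩)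

lemma CSep.symm {e f : Alt n →* H} (h : CSep e f) : CSep f e := by
  intro p q u d s t v d' hs ht hv
  simp only [List.mem_cons, List.not_mem_nil, or_false, not_or] at hs ht hv
  refine (h s t v d' p q u d ?_ ?_ ?_).symm <;>
    simp only [List.mem_cons, List.not_mem_nil, or_false, not_or]
  exacts [⟨Ne.symm hs.1, Ne.symm ht.1, Ne.symm hv.1⟩,
    ⟨Ne.symm hs.2.1, Ne.symm ht.2.1, Ne.symm hv.2.1⟩,
    ⟨Ne.symm hs.2.2, Ne.symm ht.2.2, Ne.symm hv.2.2⟩]

/-- A three-cycle as a commutator avoiding given colours. -/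
lemma exists_commutator {c a d : Fin n} (h : Dist c a d) (l : List (Fin n))
    (hl : l.length + 5 ≤ n) (hcl : c ∉ l) (hal : a ∉ l) (hdl : d ∉ l) :
    ∃ b e, ∃ (h1 : Dist a b c) (h2 : Dist c d e), ⁅cyc a b c h1, cyc c d e h2⁆ = cyc c a d h ∧
      (∀ z ∈ [a, b, c], z ∉ l) ∧ ∀ z ∈ [c, d, e], z ∉ l := by
  obtain ⟨b, hb⟩ := exists_fresh (l ++ [c, a, d])
    (by simp only [List.length_append, List.length_cons, List.length_nil]; omega)
  obtain ⟨e, he⟩ := exists_fresh (l ++ [c, a, d, b])
    (by simp only [List.length_append, List.length_cons, List.length_nil]; omega)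
  simp only [List.mem_append, List.mem_cons, List.not_mem_nil, or_false, not_or] at hb he
  refine ⟨b, e, ⟨Ne.symm hb.2.2.1, hb.2.1, h.1.symm⟩,
    ⟨h.2.2, Ne.symm he.2.2.2.1, Ne.symm he.2.1⟩,
    commutator_cyc _ _ h (Ne.symm he.2.2.1) hb.2.2.2 (Ne.symm he.2.2.2.2), ?_, ?_⟩ <;>
    simp [hcl, hal, hdl, hb.1, he.1]

lemma Meet.csep (hn : 8 ≤ n) {a b g r : Alt n →* H} (hg : Meet a b g) (ha : CSep a r)
    (hb : CSep b r) : CSep g r := by
  intro p q u d s t v d' hs ht hv
  have hs' := hs
  have ht' := ht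
  have hv' := hv
  simp only [List.mem_cons, List.not_mem_nil, or_false, not_or] at hs' ht' hv'
  obtain ⟨x, y, h1, h2, e, hx, hy⟩ := exists_commutator d [s, t, v]
    (by simp only [List.length_cons, List.length_nil]; omega)
    (by simp [Ne.symm hs'.1, Ne.symm ht'.1, Ne.symm hv'.1])
    (by simp [Ne.symm hs'.2.1, Ne.symm ht'.2.1, Ne.symm hv'.2.1])
    (by simp [Ne.symm hs'.2.2, Ne.symm ht'.2.2, Ne.symm hv'.2.2])
  rw [← e, ← hg, commutatorElement_def]
  have c1 := ha _ _ _ h1 _ _ _ d' (fun hm => hx s hm (by simp)) (fun hm => hx t hm (by simp))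
    (fun hm => hx v hm (by simp))
  have c2 := hb _ _ _ h2 _ _ _ d' (fun hm => hy s hm (by simp)) (fun hm => hy t hm (by simp))
    (fun hm => hy v hm (by simp))
  exact ((c1.mul_left c2).mul_left c1.inv_left).mul_left c2.inv_left

/-- The centre of a perfect group modulo its centre is trivial. -/
theorem center_quotient_center (hH : commutator H = ⊤) :
    Subgroup.center (H ⧸ Subgroup.center H) = ⊥ := by
  rw [eq_bot_iff]
  intro z hz
  obtain ⟨x, rfl⟩ := QuotientGroup.mk'_surjective (Subgroup.center H) z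
  have hx : ∀ y, ⁅x, y⁆ ∈ Subgroup.center H := fun y => by
    rw [← QuotientGroup.eq_one_iff]
    show QuotientGroup.mk' (Subgroup.center H) ⁅x, y⁆ = 1
    rw [map_commutatorElement]
    exact commutatorElement_eq_one_iff_commute.2 (Subgroup.mem_center_iff.1 hz _).symm
  let χ : H →* H := MonoidHom.mk' (fun y => ⁅x, y⁆) fun a b => by
    show ⁅x, a * b⁆ = ⁅x, a⁆ * ⁅x, b⁆
    rw [commutator_mul_right, ((Subgroup.mem_center_iff.1 (hx b)) a)]
    group
  have hcomm : ∀ a b, Commute (χ a) (χ b) :=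
    fun a b => (Subgroup.mem_center_iff.1 (hx a) _).symm
  have hker : χ.ker = ⊤ := by
    rw [eq_top_iff, ← hH, commutator_def, Subgroup.commutator_le]
    intro a _ b _
    rw [MonoidHom.mem_ker, map_commutatorElement]
    exact commutatorElement_eq_one_iff_commute.2 (hcomm a b)
  rw [Subgroup.mem_bot]
  refine (QuotientGroup.eq_one_iff x).2 (Subgroup.mem_center_iff.2 fun y => ?_)
  have : χ y = 1 := MonoidHom.mem_ker.1 (hker ▸ Subgroup.mem_top y)
  exact (commutatorElement_eq_one_iff_commute.1 this).symm.eq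

namespace Part

variable {u : Alt n →* H} {I J K : Type*}

/-- `g` commutes with the partition away from the colours in `C`. -/
def Away [DecidableEq I] (P : Part u I) (C : List (Fin n)) (g : H) : Prop :=
  ∀ i a b c (h : Dist a b c), a ∉ C → b ∉ C → c ∉ C → Commute g (P.atom i (cyc a b c h))

lemma Away.map [DecidableEq I] {P : Part u I} {C : List (Fin n)} {g : H} (σ : H →* H')
    (h : Away P C g) : Away (P.map σ) C (σ g) :=
  fun i a b c d ha hb hc => (h i a b c d ha hb hc).map σ

/-- A merged block moves the blocks inside it by inner automorphisms. -/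
lemma conj_atom_of_refines [DecidableEq I] [DecidableEq J] {S : Part u I} {R : Part u J}
    {g : I → J} (h : Refines S g R) (z : I) (k x : Alt n) :
    R.atom (g z) k * S.atom z x * (R.atom (g z) k)⁻¹ = S.atom z (k * x * k⁻¹) := by
  have e : R.atom (g z) k = S.hom (Pi.mulSingle (g z) k ∘ g) := by
    rw [atom_apply, ← h]; rfl
  rw [e, atom_apply, atom_apply, ← map_inv, ← map_mul, ← map_mul]
  congr 1
  funext w
  by_cases hw : w = z
  · subst hw; simp
  · simp [hw]

variable [DecidableEq I] [DecidableEq J] [DecidableEq K] [Finite I] [Finite J]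
variable {P : Part u I} {Q : Part u J} {R : Part u K}
variable {T : Part u (I × J)} {S : Part u (I × K)} {V : Part u (J × K)}

omit [Finite I] [Finite J] in
lemma comm_atom_joint (hn : 8 ≤ n) (hT : IsJoint P Q T) (hS : IsJoint P R S) (hV : IsJoint Q R V)
    {i i' : I} (hi : i' ≠ i) (k : K) (j : J) : Comm (S.atom (i, k)) (T.atom (i', j)) :=
  Meet.orth hn (hS.meet i k).symm (hT.meet i' j).symm (P.comm_atom (Ne.symm hi))
    (hV.meet j k).symm.sep (hS.meet i' k).symm.sep (hT.meet i j).sep

omit [Finite I] [Finite J] in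
lemma csep_cells (hn : 8 ≤ n) (hT : IsJoint P Q T) (hS : IsJoint P R S) (hV : IsJoint Q R V)
    (i : I) (j : J) (k : K) : CSep (S.atom (i, k)) (V.atom (j, k)) :=
  (hS.meet i k).csep hn
    ((hV.meet j k).csep hn (hT.meet i j).symm.sep.csep (hS.meet i k).symm.sep.csep).symm
    ((hV.meet j k).csep hn (hV.meet j k).sep.csep (sep_self (R.atom k)).csep).symm

omit [Finite I] [Finite J] in
/-- The conjugates of the blocks outside the `i`th row by the second coefficient are orthogonal to
the first. -/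
lemma conj_cell_commute (hn : 8 ≤ n) (hT : IsJoint P Q T) (hS : IsJoint P R S)
    (hV : IsJoint Q R V) {i i' : I} (hi : i' ≠ i) (j j' : J) (k : K) {p q r : Fin n}
    (h : Dist p q r) (z x : Alt n) :
    Commute (S.atom (i, k) x) (V.atom (j, k) (cyc p q r h) * T.atom (i', j') z *
      (V.atom (j, k) (cyc p q r h))⁻¹) := by
  have het := comm_atom_joint hn hT hS hV hi k
  by_cases hj : j' = j
  swap
  · have : Comm (V.atom (j, k)) (T.atom (i', j')) :=
      Meet.orth hn (hV.meet j k).symm (hT.meet i' j') (Q.comm_atom (Ne.symm hj))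
        (hS.meet i' k).symm.sep (hV.meet j' k).symm.sep (hT.meet i' j).symm.sep
    rw [(this (cyc p q r h) z).eq, mul_inv_cancel_right]
    exact het j' x z
  subst hj
  have cRT : CSep (R.atom k) (T.atom (i', j')) :=
    ((hT.meet i' j').csep hn (hS.meet i' k).sep.csep (hV.meet j' k).sep.csep).symm
  have small : ∀ c a d (hd : Dist c a d) s t v (hd' : Dist s t v), s ∉ [c, a, d] → t ∉ [c, a, d] →
      v ≠ a → v ≠ d → ∀ x, Commute (S.atom (i, k) x) (V.atom (j', k) (cyc c a d hd) *
        T.atom (i', j') (cyc s t v hd') * (V.atom (j', k) (cyc c a d hd))⁻¹) := by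
    intro c a d hd s t v hd' hs ht hva hvd x
    simp only [List.mem_cons, List.not_mem_nil, or_false, not_or] at hs ht
    obtain ⟨b, hb⟩ := exists_fresh [c, a, d, s, t, v]
      (by simp only [List.length_cons, List.length_nil]; omega)
    obtain ⟨e, he⟩ := exists_fresh [c, a, d, s, t, v, b]
      (by simp only [List.length_cons, List.length_nil]; omega)
    simp only [List.mem_cons, List.not_mem_nil, or_false, not_or] at hb he
    obtain ⟨hbc, hba, hbd, hbs, hbt, hbv⟩ := hb
    obtain ⟨hec, hea, hed, hes, het', hev, heb⟩ := he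
    have h1 : Dist a b c := ⟨Ne.symm hba, hbc, hd.1.symm⟩
    have h2 : Dist c d e := ⟨hd.2.2, Ne.symm hed, Ne.symm hec⟩
    obtain ⟨v', hv', hv'a, hv'b, hv'c, hv's, hv't⟩ :
        ∃ v', (cyc c d e h2 : Perm (Fin n)) v' = v ∧ v' ≠ a ∧ v' ≠ b ∧ v' ≠ c ∧ v' ≠ s ∧ v' ≠ t := by
      by_cases hvc : v = c
      · exact ⟨e, by rw [cyc_apply_thd, hvc], hea, heb, hec, hes, het'⟩
      · exact ⟨v, cyc_apply_of_ne _ _ _ _ hvc hvd (Ne.symm hev), hva, Ne.symm hbv, hvc,
          hd'.2.2.symm, hd'.2.1.symm⟩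
    have h3 : Dist s t v' := ⟨hd'.1, Ne.symm hv't, Ne.symm hv's⟩
    have hz : cyc c d e h2 * cyc s t v' h3 * (cyc c d e h2)⁻¹ = cyc s t v hd' := by
      rw [conj_cyc _ _ _ _ h3 (dist_map _ h3)]
      simp only [cyc_apply_of_ne _ _ _ h2 (x := s) hs.1 hs.2.2 (Ne.symm hes),
        cyc_apply_of_ne _ _ _ h2 (x := t) ht.1 ht.2.2 (Ne.symm het'), hv']
    have hct : Commute (R.atom k (cyc a b c h1)) (T.atom (i', j') (cyc s t v' h3)) := by
      refine cRT _ _ _ h1 _ _ _ h3 ?_ ?_ ?_ <;>
        simp only [List.mem_cons, List.not_mem_nil, or_false, not_or]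
      exacts [⟨hs.2.1, Ne.symm hbs, hs.1⟩, ⟨ht.2.1, Ne.symm hbt, ht.1⟩, ⟨hv'a, hv'b, hv'c⟩]
    have hQ := conj_atom_of_refines (S := T) (R := Q) hT.2 (i', j') (cyc c d e h2)
      (cyc s t v' h3)
    rw [hz] at hQ
    rw [← commutator_cyc h1 h2 hd (Ne.symm hea) hbd (Ne.symm heb), ← (hV.meet j' k).symm]
    have hR := conj_atom_of_refines (S := S) (R := R) hS.2 (i, k) (cyc a b c h1)
      ((cyc a b c h1)⁻¹ * x * cyc a b c h1)
    simp only [← mul_assoc, mul_inv_cancel, one_mul, mul_inv_cancel_right] at hR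
    rw [← hR, commutatorElement_def]
    change Commute _ (R.atom k _ * Q.atom j' _ * _ * _ * _ * _)
    have e1 : R.atom k (cyc a b c h1) * Q.atom j' (cyc c d e h2) * (R.atom k (cyc a b c h1))⁻¹ *
        (Q.atom j' (cyc c d e h2))⁻¹ * T.atom (i', j') (cyc s t v hd') *
        (R.atom k (cyc a b c h1) * Q.atom j' (cyc c d e h2) * (R.atom k (cyc a b c h1))⁻¹ *
          (Q.atom j' (cyc c d e h2))⁻¹)⁻¹ =
        R.atom k (cyc a b c h1) * T.atom (i', j') (cyc s t v hd') *
          (R.atom k (cyc a b c h1))⁻¹ := by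
      rw [← hQ]
      generalize R.atom k (cyc a b c h1) = r at hct ⊢
      generalize Q.atom j' (cyc c d e h2) = y
      generalize T.atom (i', j') (cyc s t v' h3) = w at hct ⊢
      have := hct.inv_left.eq
      calc _ = r * y * (r⁻¹ * w) * r * y⁻¹ * r⁻¹ := by group
        _ = _ := by rw [this]; group
    rw [e1]
    exact (Commute.conj_iff _).2 (het j' _ _)
  let F : Alt n →* H :=
    (MulAut.conj (V.atom (j', k) (cyc p q r h))).toMonoidHom.comp (T.atom (i', j'))
  let L : Subgroup (Alt n) :=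
    (Subgroup.centralizer (Set.range (S.atom (i, k)))).comap F
  have memL : ∀ z, z ∈ L ↔ ∀ x, Commute (S.atom (i, k) x) (F z) := by
    intro z
    simp only [L, Subgroup.mem_comap, Subgroup.mem_centralizer_iff, Set.forall_mem_range]
    exact Iff.rfl
  have top : L = ⊤ := eq_top_of_upToOne hn L p q r fun s t v d hs ht => (memL _).2 fun x => by
    have d₁ : Dist q r p := ⟨h.2.1, h.2.2.symm, h.1.symm⟩
    have d₂ : Dist r p q := ⟨h.2.2.symm, h.1, h.2.1.symm⟩
    have rs : ∀ {a b c : Fin n} {x : Fin n}, x ≠ a ∧ x ≠ b ∧ x ≠ c → x ∉ [a, b, c] := by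
      intro a b c x hx; simp [hx.1, hx.2.1, hx.2.2]
    show Commute _ (V.atom (j', k) _ * _ * _)
    by_cases hv : v = p
    · exact small p q r h s t v d (rs hs) (rs ht) (hv ▸ h.1) (hv ▸ h.2.2) x
    by_cases hv' : v = q
    · rw [cyc_rotate p q r h d₁]
      exact small q r p d₁ s t v d (rs ⟨hs.2.1, hs.2.2, hs.1⟩) (rs ⟨ht.2.1, ht.2.2, ht.1⟩)
        (hv' ▸ h.2.1) hv x
    rw [cyc_rotate p q r h d₁, cyc_rotate q r p d₁ d₂]
    exact small r p q d₂ s t v d (rs ⟨hs.2.2, hs.1, hs.2.1⟩) (rs ⟨ht.2.2, ht.1, ht.2.1⟩) hv hv' x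
  exact (memL z).1 (top ▸ Subgroup.mem_top z) x

/-- The same for the cells of the third coefficient outside the `i`th row. -/
lemma conj_row_commute (hn : 8 ≤ n) (hT : IsJoint P Q T) (hS : IsJoint P R S) (hV : IsJoint Q R V)
    {i i' : I} (hi : i' ≠ i) (j : J) (k : K) {p q r : Fin n} (h : Dist p q r) (m x : Alt n) :
    Commute (S.atom (i, k) x) (V.atom (j, k) (cyc p q r h) * S.atom (i', k) m *
      (V.atom (j, k) (cyc p q r h))⁻¹) := by
  have block : ∀ {p q r : Fin n} (h : Dist p q r) (z x : Alt n), Commute (S.atom (i, k) x)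
      (V.atom (j, k) (cyc p q r h) * P.atom i' z * (V.atom (j, k) (cyc p q r h))⁻¹) := by
    intro p q r h z x
    rw [atom_apply P, ← hT.1, merge_apply]
    refine commute_pi ((MulAut.conj (V.atom (j, k) (cyc p q r h))).toMonoidHom.comp T.hom) _ _
      fun w => ?_
    obtain ⟨i₁, j₁⟩ := w
    by_cases hw : i₁ = i'
    · subst hw
      simp only [Function.comp_apply, Pi.mulSingle_eq_same]
      exact conj_cell_commute hn hT hS hV hi j j₁ k h z x
    · simp only [Function.comp_apply, Pi.mulSingle_eq_of_ne hw, Pi.mulSingle_one, map_one]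
      exact Commute.one_right _
  let F : Alt n →* H :=
    (MulAut.conj (V.atom (j, k) (cyc p q r h))).toMonoidHom.comp (S.atom (i', k))
  have top : (Subgroup.centralizer (Set.range (S.atom (i, k)))).comap F = ⊤ := by
    refine top_unique <| closure_commutators (by omega : 5 ≤ n) ▸ (Subgroup.closure_le _).2 ?_
    rintro _ ⟨⟨z, l⟩, rfl⟩
    simp only [SetLike.mem_coe, Subgroup.mem_comap, Subgroup.mem_centralizer_iff,
      Set.forall_mem_range]
    intro x
    show Commute _ (V.atom (j, k) _ * _ * _)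
    rw [← hS.meet i' k z l, commutatorElement_def]
    have hd := dist_map l⁻¹ h
    have hR := conj_atom_of_refines (S := V) (R := R) hV.2 (j, k) l
      (cyc _ _ _ hd)
    rw [← conj_cyc l⁻¹ p q r h hd, show l * (l⁻¹ * cyc p q r h * l⁻¹⁻¹) * l⁻¹ = cyc p q r h by group,
      conj_cyc l⁻¹ p q r h hd] at hR
    have hR' := conj_atom_of_refines (S := S) (R := R) hS.2 (i, k) l (l⁻¹ * x * l)
    rw [show l * (l⁻¹ * x * l) * l⁻¹ = x by group] at hR'
    have c1 := block h z x
    have c2 := block hd z⁻¹ (l⁻¹ * x * l)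
    rw [map_inv (P.atom i')] at c2
    have c2' := (Commute.conj_iff (R.atom k l)).2 c2
    dsimp only at hR hR'
    rw [hR'] at c2'
    have := c1.mul_right c2'
    rw [← hR]
    refine Eq.mp (congrArg (Commute _) ?_) this
    rw [← hR]
    group
  have hm : F m ∈ Subgroup.centralizer (Set.range (S.atom (i, k))) :=
    Subgroup.mem_comap.1 (top ▸ Subgroup.mem_top m)
  exact Subgroup.mem_centralizer_iff.1 hm _ ⟨x, rfl⟩

lemma left_acts [Finite K] (hn : 8 ≤ n) (hT : IsJoint P Q T) (hS : IsJoint P R S)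
    (hV : IsJoint Q R V) (i : I) (j : J) (k : K) (l x : Alt n) {p q r : Fin n} (h : Dist p q r) :
    S.atom (i, k) l * ⁅S.atom (i, k) x, V.atom (j, k) (cyc p q r h)⁆ * (S.atom (i, k) l)⁻¹ =
      ⁅S.atom (i, k) (l * x * l⁻¹), V.atom (j, k) (l * cyc p q r h * l⁻¹)⁆ := by
  have hd : Dist r q p := ⟨h.2.1.symm, h.1.symm, h.2.2.symm⟩
  have others : Commute ⁅S.atom (i, k) x, V.atom (j, k) (cyc p q r h)⁆
      ((S.atom (i, k) l)⁻¹ * R.atom k l) := by
    have e : (S.atom (i, k) l)⁻¹ * R.atom k l =
        S.hom fun z => if z.2 = k ∧ z.1 ≠ i then l else 1 := by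
      rw [atom_apply R, ← hS.2, merge_apply, atom_apply, ← map_inv, ← map_mul]
      refine congrArg S.hom (funext fun z => ?_)
      obtain ⟨i', k'⟩ := z
      by_cases hk : k' = k <;> by_cases hi : i' = i <;> simp [hk, hi, Prod.ext_iff]
    rw [e]
    refine commute_pi S.hom _ _ fun z => ?_
    obtain ⟨i', k'⟩ := z
    by_cases hz : k' = k ∧ i' ≠ i
    swap
    · simp [hz]
    obtain ⟨rfl, hi⟩ := hz
    rw [if_pos ⟨rfl, hi⟩, ← atom_apply, commutatorElement_def, mul_assoc (_ * _), mul_assoc (S.atom _ x)]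
    have ce : ∀ y, Commute (S.atom (i, k') y) (S.atom (i', k') l) :=
      fun y => S.comm_atom (by simp [Ne.symm hi]) y l
    refine (ce x).mul_left ?_
    have hc := (Commute.conj_iff (V.atom (j, k') (cyc p q r h))).2
      (conj_row_commute hn hT hS hV hi j k' hd l x⁻¹)
    rw [← cyc_inv p q r h hd, map_inv (V.atom (j, k')), inv_inv, map_inv (S.atom (i, k'))] at hc
    simp only [← mul_assoc, mul_inv_cancel, one_mul, mul_inv_cancel_right] at hc ⊢
    exact hc
  have conjη : R.atom k l * ⁅S.atom (i, k) x, V.atom (j, k) (cyc p q r h)⁆ * (R.atom k l)⁻¹ =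
      ⁅S.atom (i, k) (l * x * l⁻¹), V.atom (j, k) (l * cyc p q r h * l⁻¹)⁆ := by
    rw [← conj_atom_of_refines (S := S) (R := R) hS.2 (i, k) l x,
      ← conj_atom_of_refines (S := V) (R := R) hV.2 (j, k) l (cyc p q r h)]
    simp only [commutatorElement_def]
    group
  rw [← conjη]
  have := others.eq
  generalize ⁅S.atom (i, k) x, V.atom (j, k) (cyc p q r h)⁆ = η at this ⊢
  generalize S.atom (i, k) l = A at this ⊢
  calc A * η * A⁻¹ = A * (η * (A⁻¹ * R.atom k l)) * (R.atom k l)⁻¹ := by group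
    _ = _ := by rw [this]; group

theorem flank [Finite K] (hn : 8 ≤ n) (hT : IsJoint P Q T) (hS : IsJoint P R S)
    (hV : IsJoint Q R V) (i : I) (j : J) (k : K) : Flank (S.atom (i, k)) (V.atom (j, k)) where
  sep := csep_cells hn hT hS hV i j k
  left l _ _ _ _ _ _ _ h' := left_acts hn hT hS hV i j k l _ h'
  right l p q r h s t v h' := by
    have := left_acts (T := T.merge Prod.swap) hn ⟨hT.2, hT.1⟩ hV hS j i k l (cyc s t v h') h
    have e := congrArg (·⁻¹) this
    simp only [mul_inv_rev, inv_inv, commutatorElement_inv, ← mul_assoc] at e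
    exact e

/-- A cell has a meet once its cubes vanish. -/
theorem cell_of_cubes [Finite K] (hn : 8 ≤ n) (hT : IsJoint P Q T) (hS : IsJoint P R S)
    (hV : IsJoint Q R V) (i : I) (j : J) (k : K)
    (h : ∀ a b c, Dist a b c → Flank.cube (S.atom (i, k)) (V.atom (j, k)) a b c = 1) :
    Cell S V i j k :=
  (flank hn hT hS hV i j k).exists_meet hn h

/-- The cubes of a cell lie in the centre when the group is generated by elements commuting with
the three partitions away from three colours. -/
theorem cube_mem_center [Finite K] (hn : 8 ≤ n) (hT : IsJoint P Q T) (hS : IsJoint P R S)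
    (hV : IsJoint Q R V) {G : Set H} (hG : Subgroup.closure G = ⊤)
    (hloc : ∀ g ∈ G, ∃ C : List (Fin n), C.length ≤ 3 ∧ Away P C g ∧ Away Q C g ∧ Away R C g)
    (i : I) (j : J) (k : K) {a b c : Fin n} (h : Dist a b c) :
    Flank.cube (S.atom (i, k)) (V.atom (j, k)) a b c ∈ Subgroup.center H := by
  have key : Subgroup.closure G ≤
      Subgroup.centralizer {Flank.cube (S.atom (i, k)) (V.atom (j, k)) a b c} := by
    refine (Subgroup.closure_le _).2 fun g hg => ?_
    obtain ⟨C, hC, hP, hQ, hR⟩ := hloc g hg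
    -- the meet of two partitions is local too
    have pair : ∀ {M N μ : Alt n →* H}, Meet M N μ →
        (∀ a b c (h : Dist a b c), a ∉ C → b ∉ C → c ∉ C → Commute g (M (cyc a b c h))) →
        (∀ a b c (h : Dist a b c), a ∉ C → b ∉ C → c ∉ C → Commute g (N (cyc a b c h))) →
        ∀ a b c (h : Dist a b c), a ∉ C → b ∉ C → c ∉ C → Commute g (μ (cyc a b c h)) := by
      intro M N μ hμ hM hN c a d hd hc ha hdC
      obtain ⟨x, y, h1, h2, e, hx, hy⟩ := exists_commutator hd C (by omega) hc ha hdC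
      rw [← e, ← hμ, commutatorElement_def]
      have c1 := hM _ _ _ h1 (hx _ (by simp)) (hx _ (by simp)) (hx _ (by simp))
      have c2 := hN _ _ _ h2 (hy _ (by simp)) (hy _ (by simp)) (hy _ (by simp))
      exact ((c1.mul_right c2).mul_right c1.inv_right).mul_right c2.inv_right
    rw [SetLike.mem_coe, Subgroup.mem_centralizer_singleton_iff]
    exact ((flank hn hT hS hV i j k).cube_commute hn g C hC
      (pair (hS.meet i k) (hP i) (hR k)) (pair (hV.meet j k) (hQ j) (hR k)) h).eq
  rw [hG] at key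
  exact Subgroup.mem_center_iff.2 fun g =>
    Subgroup.mem_centralizer_singleton_iff.1 (key (Subgroup.mem_top g))

/-- **Projective calculus**: in a group with trivial centre generated by elements each of which
commutes with three pairwise compatible partitions away from three colours, the join of two of the
partitions is compatible with the third. -/
theorem compat_join_of_center [Finite K] (hn : 8 ≤ n) (hT : IsJoint P Q T) (hS : IsJoint P R S)
    (hV : IsJoint Q R V) (hZ : Subgroup.center H = ⊥) {G : Set H} (hG : Subgroup.closure G = ⊤)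
    (hloc : ∀ g ∈ G, ∃ C : List (Fin n), C.length ≤ 3 ∧ Away P C g ∧ Away Q C g ∧ Away R C g) :
    Compat T R :=
  compat_join hn hT hS hV fun i j k => cell_of_cubes hn hT hS hV i j k fun a b c h => by
    have := cube_mem_center hn hT hS hV hG hloc i j k h
    rwa [hZ, Subgroup.mem_bot] at this

omit [DecidableEq I] [DecidableEq J] [Finite I] [Finite J] in
lemma IsJoint.map (σ : H →* H') {P : Part u I} {Q : Part u J} {T : Part u (I × J)}
    (h : IsJoint P Q T) : IsJoint (P.map σ) (Q.map σ) (T.map σ) :=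
  ⟨congrArg σ.comp h.1, congrArg σ.comp h.2⟩

/-- The same for a perfect group, modulo its centre. -/
theorem compat_join_mod_center [Finite K] (hn : 8 ≤ n) (hT : IsJoint P Q T) (hS : IsJoint P R S)
    (hV : IsJoint Q R V) (hH : commutator H = ⊤) {G : Set H} (hG : Subgroup.closure G = ⊤)
    (hloc : ∀ g ∈ G, ∃ C : List (Fin n), C.length ≤ 3 ∧ Away P C g ∧ Away Q C g ∧ Away R C g) :
    Compat (T.map (QuotientGroup.mk' (Subgroup.center H)))
      (R.map (QuotientGroup.mk' (Subgroup.center H))) := by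
  refine compat_join_of_center hn (hT.map _) (hS.map _) (hV.map _) (center_quotient_center hH)
    (G := QuotientGroup.mk' (Subgroup.center H) '' G) ?_ ?_
  · rw [← MonoidHom.map_closure, hG,
      Subgroup.map_top_of_surjective _ (QuotientGroup.mk'_surjective _)]
  · rintro _ ⟨g, hg, rfl⟩
    obtain ⟨C, hC, hP, hQ, hR⟩ := hloc g hg
    exact ⟨C, hC, hP.map _, hQ.map _, hR.map _⟩

end Part

end Vale.Agent.P196.Full.Calculus
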