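import Vale.Agent.P196.Full.Calculus.Part

/-!
# P196: three partitions

Pairwise compatible partitions need not have a common refinement: the meet of three blocks may
only be a homomorphism of a central extension. This file proves that they have one when every
cell has a meet, in particular when two of them determine the third, and how the condition spreads
from one cell to the others.
-/

namespace Vale.Agent.P196.Full.Calculus.Part

open scoped commutatorElement

variable {n : ℕ} {H : Type*} [Group H] {I J K : Type*} {u : Alt n →* H}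
variable [DecidableEq I] [DecidableEq J] [DecidableEq K] [Finite I] [Finite J] [Finite K]
variable {P : Part u I} {Q : Part u J} {R : Part u K}
variable {T : Part u (I × J)} {S : Part u (I × K)} {V : Part u (J × K)}

/-- The meet of the blocks `(i, k)` and `(j, k)` is a homomorphism. -/
def Cell (S : Part u (I × K)) (V : Part u (J × K)) (i : I) (j : J) (k : K) : Prop :=
  ∃ μ, Meet (S.atom (i, k)) (V.atom (j, k)) μ

omit [DecidableEq I] [DecidableEq K] [Finite I] [Finite J] [Finite K] in
lemma IsJoint.merge_right {L : Type*} (h : IsJoint P R S) (f : K → L) :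
    IsJoint P (R.merge f) (S.merge (Prod.map id f)) := by
  refine ⟨MonoidHom.ext fun y => ?_, MonoidHom.ext fun y => ?_⟩
  · exact DFunLike.congr_fun h.1 y
  · exact DFunLike.congr_fun h.2 (y ∘ f)

/-- The block `k` and its complement. -/
def only (k : K) : K → Bool := fun k' => decide (k' = k)

omit [Finite I] [Finite J] [Finite K] in
lemma atom_only (R : Part u K) (k : K) : (R.merge (only k)).atom true = R.atom k := by
  refine MonoidHom.ext fun a => congrArg R.hom (funext fun k' => ?_)
  by_cases h : k' = k <;> simp [only, h, Pi.mulSingle_apply]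

omit [Finite I] [Finite J] [Finite K] in
lemma atom_only_prod (S : Part u (I × K)) (i : I) (k : K) :
    (S.merge (Prod.map id (only k))).atom (i, true) = S.atom (i, k) := by
  refine MonoidHom.ext fun a => congrArg S.hom (funext fun z => ?_)
  obtain ⟨i', k'⟩ := z
  by_cases h : k' = k <;> simp [only, h, Pi.mulSingle_apply, Prod.ext_iff]

omit [DecidableEq I] [Finite I] [Finite J] [DecidableEq J] [DecidableEq K] [Finite K] in
lemma unit_bool (B : Part u Bool) (x : Bool) (b : Alt n) : B.atom x b * B.atom (!x) b = u b := by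
  rw [← B.hom_const, atom_apply, atom_apply, ← map_mul]
  congr 1
  funext y
  cases x <;> cases y <;> simp

omit [Finite I] [Finite J] [Finite K] in
/-- The cell theorem for a partition with two blocks. -/
lemma cell_bool (hn : 8 ≤ n) {B : Part u Bool} {S : Part u (I × Bool)} {V : Part u (J × Bool)}
    (hT : IsJoint P Q T) (hS : IsJoint P B S) (hV : IsJoint Q B V) (i : I) (j : J) (x : Bool)
    {μ : Alt n →* H} (hμ : Meet (S.atom (i, x)) (V.atom (j, x)) μ) :
    Meet (T.atom (i, j)) (B.atom x) μ ∧
      ∃ ν, Meet (S.atom (i, !x)) (V.atom (j, !x)) ν ∧ Meet (T.atom (i, j)) (B.atom (!x)) ν ∧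
        Split μ ν (T.atom (i, j)) :=
  cell hn (hT.meet i j) (hS.meet i x) (hS.meet i (!x)) (hV.meet j x) (hV.meet j (!x))
    (B.comm_atom (by simp)) (fun a b => by rw [unit_bool]; exact P.meet_atom_unit i a b)
    (fun a b => by rw [unit_bool]; exact Q.meet_atom_unit j a b) hμ

omit [Finite I] [Finite J] [Finite K] in
/-- A cell gives the meet of the pair with the third block. -/
theorem meet_of_cell (hn : 8 ≤ n) (hT : IsJoint P Q T) (hS : IsJoint P R S) (hV : IsJoint Q R V)
    {i : I} {j : J} {k : K} {μ : Alt n →* H} (hμ : Meet (S.atom (i, k)) (V.atom (j, k)) μ) :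
    Meet (T.atom (i, j)) (R.atom k) μ := by
  have h := (cell_bool hn hT (hS.merge_right (only k)) (hV.merge_right (only k)) i j true
    (μ := μ) (by rw [atom_only_prod, atom_only_prod]; exact hμ)).1
  rwa [atom_only] at h

/-- Three pairwise compatible partitions all whose cells have meets: the join of two is compatible
with the third. -/
theorem compat_join (hn : 8 ≤ n) (hT : IsJoint P Q T) (hS : IsJoint P R S) (hV : IsJoint Q R V)
    (h : ∀ i j k, Cell S V i j k) : Compat T R :=
  compat_of_meets hn fun z k =>
    let ⟨μ, hμ⟩ := h z.1 z.2 k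
    ⟨μ, meet_of_cell hn hT hS hV hμ⟩

omit [Finite J] in
/-- A cell meets the pair in the same way when seen from its first coordinate. -/
theorem cell_rotate (hn : 8 ≤ n) (hT : IsJoint P Q T) (hS : IsJoint P R S) (hV : IsJoint Q R V)
    {i : I} {j : J} {k : K} {μ : Alt n →* H} (hμ : Meet (S.atom (i, k)) (V.atom (j, k)) μ) :
    Meet (T.atom (i, j)) (S.atom (i, k)) μ := by
  intro a b
  have hR : R.atom k b = S.hom (fun z => if z.2 = k then b else 1) := by
    rw [atom_apply, ← hS.2, merge_apply]
    refine congrArg S.hom (funext fun z => ?_)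
    simp [Pi.mulSingle_apply]
  have e : (fun z : I × K => if z.2 = k then b else 1) =
      Pi.mulSingle (i, k) b * fun z => if z.2 = k ∧ z.1 ≠ i then b else 1 := by
    funext z
    obtain ⟨i', k'⟩ := z
    by_cases hk : k' = k <;> by_cases hi : i' = i <;>
      simp [hk, hi, Prod.ext_iff]
  have hc : Commute (T.atom (i, j) a) (S.hom fun z => if z.2 = k ∧ z.1 ≠ i then b else 1) := by
    refine commute_pi _ _ _ fun z => ?_
    obtain ⟨i', k'⟩ := z
    by_cases hz : k' = k ∧ i' ≠ i
    · obtain ⟨rfl, hi⟩ := hz
      rw [if_pos ⟨rfl, hi⟩]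
      exact Meet.orth hn (hT.meet i j).symm (hS.meet i' k').symm (P.comm_atom (Ne.symm hi))
        (hV.meet j k').sep (hT.meet i' j).symm.sep (hS.meet i k').sep a b
    · simp [hz]
  have h := meet_of_cell hn hT hS hV hμ a b
  rw [hR, e, map_mul, ← atom_apply, commutatorElement_def] at h
  rw [← h, commutatorElement_def, mul_inv_rev]
  have := hc.inv_left.eq
  calc T.atom (i, j) a * S.atom (i, k) b * (T.atom (i, j) a)⁻¹ * (S.atom (i, k) b)⁻¹
      = T.atom (i, j) a * S.atom (i, k) b * ((T.atom (i, j) a)⁻¹ *
          (S.hom fun z => if z.2 = k ∧ z.1 ≠ i then b else 1)) *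
          (S.hom fun z => if z.2 = k ∧ z.1 ≠ i then b else 1)⁻¹ * (S.atom (i, k) b)⁻¹ := by group
    _ = _ := by rw [this]; group

omit [Finite I] [Finite J] [Finite K] in
/-- For two blocks the complementary cell has a meet as well. -/
theorem cell_not (hn : 8 ≤ n) {B : Part u Bool} {S : Part u (I × Bool)} {V : Part u (J × Bool)}
    (hT : IsJoint P Q T) (hS : IsJoint P B S) (hV : IsJoint Q B V) {i : I} {j : J} {x : Bool}
    (h : Cell S V i j x) : Cell S V i j (!x) :=
  let ⟨_, hμ⟩ := h
  let ⟨ν, hν, _⟩ := (cell_bool hn hT hS hV i j x hμ).2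
  ⟨ν, hν⟩

omit [DecidableEq I] [Finite I] [Finite J] [DecidableEq J] [DecidableEq K] [Finite K] in
/-- An empty cell has a meet. -/
theorem cell_of_comm [DecidableEq I] [DecidableEq J] [DecidableEq K] {i : I} {j : J} {k : K}
    (h : Comm (S.atom (i, k)) (V.atom (j, k))) : Cell S V i j k :=
  ⟨1, Meet.of_comm h⟩

/-- If each pattern of two partitions meets only one block of a third, compatible with both, then
their join refines the third. -/
theorem refines_of_determined (hn : 8 ≤ n) (hT : IsJoint P Q T) (hS : IsJoint P R S)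
    (hV : IsJoint Q R V) (d : I × J → K)
    (h : ∀ i j k, k ≠ d (i, j) → Comm (S.atom (i, k)) (V.atom (j, k))) : Refines T d R :=
  refines_of_orth hn d fun z k hk =>
    Meet.comm_of_one (meet_of_cell hn hT hS hV (Meet.of_comm (h z.1 z.2 k hk)))

theorem compat_of_determined (hn : 8 ≤ n) (hT : IsJoint P Q T) (hS : IsJoint P R S)
    (hV : IsJoint Q R V) (d : I × J → K)
    (h : ∀ i j k, k ≠ d (i, j) → Comm (S.atom (i, k)) (V.atom (j, k))) : Compat T R :=
  Compat.of_refines (refines_of_determined hn hT hS hV d h)

end Vale.Agent.P196.Full.Calculus.Part
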